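import Crest.Agent.X261.Gauss.Defs
import Crest.Agent.X261.Rn.Defs

/-!
# Row 261, GAUSS (helper56), file `Stm`: the statements of the pieces

* `EtaStmt`    : SUB + fibre primitives : the compact fibres are characteristic;
* `RkStmt`     : the span of a closed form is constant along characteristic curves;
* `IGStmt`, `PolShStmt` : inputs from the group side and from RELN;
* `GaussStmt`  : the theorem of the package.
-/

set_option autoImplicit false
set_option linter.unusedSectionVars false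
set_option linter.dupNamespace false

open Set Filter Topology Complex Matrix MeasureTheory
open scoped ENNReal InnerProductSpace

namespace Crest.Agent.X261.Gauss

open Crest.Agent.R275.Geo Crest.Agent.R275.Core144
open Crest.Agent.R273.UCov_914 Crest.Agent.R273.Defs_333
open Crest.Agent.R273.Fock_243 (FI eW iW ep iW_add iW_smul)
open Crest.Agent.R189 (Amen)
open Crest.Agent.X261.Top (Tube Fol Pol)
open Crest.Agent.X261.Cov.A (push prj)

noncomputable section



/-- ETA -/
def EtaStmt : Prop :=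
  ∀ (n : ℕ) (X : Type) [TopologicalSpace X] [T2Space X] (A : Atl n X) (Γ : Type) [Group Γ]
    (D : MonD A Γ) (N : Subgroup Γ) [N.Normal] (q : ℕ) (H : Type) [NormedAddCommGroup H]
    [InnerProductSpace ℂ H] (Φ : Frm D q H) (U : Up Φ N) (p : ℕ)
    (𝒯 : Tube ((push D (QuotientGroup.mk' N)).atl (Γ ⧸ N)) (Γ ⧸ N) p),
    ∀ x ∈ 𝒯.M0, ∀ e ∈ U.T, prj D (QuotientGroup.mk' N) e ∈ 𝒯.T x → ∀ i, D.pr e ∈ (A.e i).source →
      ∀ w : Fin n → ℂ,
        (∀ k, dV ((push D (QuotientGroup.mk' N)).atl (Γ ⧸ N)) (i, QuotientGroup.mk' N (D.co i e))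
          (𝒯.π x) (prj D (QuotientGroup.mk' N) e) k ⬝ᵥ w = 0) → Φ.Ker i e w




/-- GAUSS -/
def GaussStmt : Prop :=
  ∀ (n : ℕ) (X : Type) [TopologicalSpace X] [T2Space X] [CompactSpace X]
    (A : Atl n X) [Finite A.ι] (Γ : Type) [Group Γ] (D : MonD A Γ), ConnectedSpace (D.cov Γ) →
    ∀ (N : Subgroup Γ) [N.Normal], Grp.JN (Γ ⧸ N) → Amen (Γ ⧸ N) →
    ∀ M : Subgroup Γ, (M.map (QuotientGroup.mk' N)).Normal →
      Infinite (M.map (QuotientGroup.mk' N)) → (M.map (QuotientGroup.mk' N)).FG →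
      ¬ Grp.VInd (M.map (QuotientGroup.mk' N)) →
    ∀ (q : ℕ) (H : Type) [NormedAddCommGroup H] [InnerProductSpace ℂ H] [CompleteSpace H]
      (Φ : Frm D q H), Up Φ N → Φ.NoFix M →
    ∀ (p : ℕ) (F : Fol (push D (QuotientGroup.mk' N)) p) (h : HM F.L), Nonempty (Pol F h)

end

end Crest.Agent.X261.Gauss
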