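import Crest.Agent.X261.Fib.Dich_Mg
import Crest.Agent.X261.Fib.Ind
import Crest.Agent.X261.Bog.Use
import Crest.Agent.X261.Uen.Wdg
import Crest.Agent.X261.End.Main_Mg
import Crest.Agent.X261.Ans.Man1
import Crest.Agent.X261.Jet.TbC
import Crest.Agent.X261.Hs.G
import Crest.Agent.R273.FS_333
import Crest.Agent.R273.NVPow_578
import Crest.Agent.R271.RExt1_747
import Crest.Agent.X261.Jet.HL
import Crest.Agent.X261.Cov.E
import Crest.Agent.X261.Gauss.EtaA
import Crest.Agent.X261.Gauss.Stm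
import Crest.Agent.X261.Plk.B
import Crest.Agent.X261.Psh.Loc
import Crest.Agent.X261.Ans.Man3
import Crest.Agent.X261.Eqv.A
import Crest.Agent.X261.Plk.D
import Crest.Agent.X261.Plk.V
import Crest.Agent.X261.Grp.Tits
import Crest.Agent.X261.Plk.C
import Crest.Agent.R275.OmTot_75
import Mathlib.Analysis.RCLike.Extend
import Crest.Agent.X261.Gauss.NP_Mg
import Crest.Agent.X261.Plk.Wt
import Crest.Agent.X261.Rn93.Pol_Mg
import Crest.Agent.X261.Grp.WR_Mg

-- ▼ part X261/Fib/HorS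
section

/-!
# X261 / FIB Hor (helper84): `JetsStmt` and the unconditional dichotomy
-/

set_option autoImplicit false

namespace Crest.Agent.X261.Fib

theorem jetsStmt : JetsStmt := fun _ _ _ _ _ _ _ _ D _ hW hp _ _ hc hs => D.jets hW hp hc hs

theorem Sys.dich {q : ℕ} {M : Type} [TopologicalSpace M] {G : Type} [Group G] [MulAction G M]
    [LocallyConnectedSpace M] (S : Sys q M G) : S.Big ∨ ∃ V, S.Dir V :=
  Sys.dich_of jetsStmt S

end Crest.Agent.X261.Fib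
end

-- ▼ part X261/Fib/Big
section

/-!
# X261 / FIB, Big (helper89): the first alternative does not occur without Bogomolov sheaves

Norms over `G ⧸ H` of polynomials in the invariant functions are sections of a power of the line
field of `d a_1 ∧ … ∧ d a_q`.
-/

set_option autoImplicit false
set_option linter.unusedSectionVars false

noncomputable section

open Set Metric Filter Topology
open scoped Matrix

namespace Crest.Agent.X261.Fib.Mn

open Crest.Agent.R275.Geo Crest.Agent.R275.Core144 Crest.Agent.R273.UCov_914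
open Crest.Agent.R281.ThnM_280 Crest.Agent.R281.Thn_280 Crest.Agent.X261.Fib.Sec
open Crest.Agent.R281.Kd_22 Crest.Agent.X261.Bog
open Crest.Agent.R273.Fock_243 (FI Gam)
open Crest.Agent.R273.SteinC_794 (df)
open Crest.Agent.X261.Uen (fm cv dF)

/-! ### auxiliary lemmas -/

theorem exists_gen {Y W ι : Type*} [TopologicalSpace Y] [TopologicalSpace W] [T2Space W]
    (u : ι → Y → W) (w : Y → W) (s : Finset ι) {O : Set Y} (hO : IsOpen O) (hne : O.Nonempty)
    (hu : ∀ v, ∀ y ∈ O, ContinuousAt (u v) y) (hw : ∀ y ∈ O, ContinuousAt w y) :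
    ∃ O' ⊆ O, IsOpen O' ∧ O'.Nonempty ∧
      ∀ v ∈ s, (∀ y ∈ O', u v y ≠ w y) ∨ ∀ y ∈ O', u v y = w y := by
  classical
  induction s using Finset.induction_on with
  | empty => exact ⟨O, subset_rfl, hO, hne, by simp⟩
  | insert v s _ ih =>
    obtain ⟨O', h1, h2, h3, h4⟩ := ih
    by_cases h : ∀ y ∈ O', u v y = w y
    · exact ⟨O', h1, h2, h3, Finset.forall_mem_insert _ _ _ |>.2 ⟨Or.inr h, h4⟩⟩
    push Not at h
    refine ⟨{y | y ∈ O' ∧ u v y ≠ w y}, fun y hy => h1 hy.1, isOpen_iff_mem_nhds.2 fun y hy =>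
      inter_mem (h2.mem_nhds hy.1) (((hu v y (h1 hy.1)).prodMk (hw y (h1 hy.1))).eventually_mem
        (isClosed_diagonal.isOpen_compl.mem_nhds hy.2)), h,
      Finset.forall_mem_insert _ _ _ |>.2 ⟨Or.inl fun y hy => hy.2, fun v' hv' =>
        (h4 v' hv').imp (fun h y hy => h y hy.1) fun h y hy => h y hy.1⟩⟩

/-- the coordinate covectors -/
abbrev pj (q : ℕ) (k : Fin q) : E q →L[ℂ] ℂ := ContinuousLinearMap.proj k

theorem li_of_surj {V : Type*} [NormedAddCommGroup V] [NormedSpace ℂ V] {q : ℕ}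
    {T : V →L[ℂ] E q} (h : Function.Surjective T) :
    LinearIndependent ℂ fun k => (pj q k).comp T := by
  refine Fintype.linearIndependent_iff.2 fun c hc j => ?_
  obtain ⟨v, hv⟩ := h (Pi.single j 1)
  simpa [hv, Pi.single_apply] using congrArg (fun S : V →L[ℂ] ℂ => S v) hc

theorem wdg_comp {n q : ℕ} (L : E q →L[ℂ] E q) (T : Cn n →L[ℂ] E q) :
    (Top.wdg fun k => cv n ((pj q k).comp (L.comp T))) =
      LinearMap.det (L : E q →ₗ[ℂ] E q) • Top.wdg fun k => cv n ((pj q k).comp T) := by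
  rw [← LinearMap.det_toMatrix', ← Plk.wdg_lin]
  congr 1
  funext k b
  have := congrFun (LinearMap.toMatrix'_mulVec (L : E q →ₗ[ℂ] E q)
    (T (EuclideanSpace.single b 1))) k
  simpa [Uen.cv_apply, Matrix.mulVec, dotProduct] using this.symm

section df

variable {n : ℕ} {X : Type} [TopologicalSpace X] {A : Atl n X} {i : A.ι} {x : X}

theorem df_congr' (hx : x ∈ (A.e i).source) {f g : X → ℂ} (h : f =ᶠ[𝓝 x] g) :
    df A i f x = df A i g x := Filter.EventuallyEq.fderiv_eq ((ev_iff hx).1 h)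

theorem df_prod_one {ι : Type*} (s : Finset ι) {g : ι → X → ℂ} (hx : x ∈ (A.e i).source)
    (hg : ∀ v, Hm A (g v) x) (h1 : ∀ v, g v x = 1) :
    df A i (fun y => ∏ v ∈ s, g v y) x = ∑ v ∈ s, df A i (g v) x := by
  classical
  induction s using Finset.induction_on with
  | empty => simpa using df_const 1
  | insert v s hv ih =>
    simp only [Finset.prod_insert hv, Finset.sum_insert hv]
    rw [df_mul' (hg v) (hm_prod s fun k _ => hg k) hx, ih]
    simp [h1, add_comm]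

end df

section ex

variable {n p : ℕ} {X : Type} [TopologicalSpace X] {A : Atl n X} {F : LF A p} {W : F.κ → Set X}

theorem ext_le {m m' : ℕ} {g : F.κ → X → ℂ} (h : F.Ext W m g) (hm : m ≤ m') : F.Ext W m' g := by
  intro a x hx S
  obtain ⟨H, h1, h2⟩ := h a x hx S
  refine ⟨fun y => H y * F.τ a y S ^ (m' - m), h1.mul ((F.hm a x hx S).pow _), ?_⟩
  filter_upwards [h2] with y hy hW
  rw [hy hW, mul_assoc, ← pow_add, Nat.add_sub_cancel' hm]

variable (F W) in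
/-- poles of finite order -/
def Ex (g : F.κ → X → ℂ) : Prop := ∃ m, F.Ext W m g

theorem ex_const (c : ℂ) : Ex F W fun _ _ => c :=
  ⟨0, by simpa using LF.Ext.smul c (LF.ext_one (F := F) (W := W))⟩

theorem Ex.mul {g g' : F.κ → X → ℂ} (h : Ex F W g) (h' : Ex F W g') :
    Ex F W fun a y => g a y * g' a y := h.elim fun _ h => h'.elim fun _ h' => ⟨_, h.mul h'⟩

theorem Ex.add {g g' : F.κ → X → ℂ} (h : Ex F W g) (h' : Ex F W g') :
    Ex F W fun a y => g a y + g' a y := h.elim fun m h => h'.elim fun m' h' =>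
  ⟨m + m', (ext_le h (Nat.le_add_right _ _)).add (ext_le h' (Nat.le_add_left _ _))⟩

theorem ex_prod {ι : Type*} (s : Finset ι) {g : ι → F.κ → X → ℂ} (h : ∀ v, Ex F W (g v)) :
    Ex F W fun a y => ∏ v ∈ s, g v a y := by
  classical
  induction s using Finset.induction_on with
  | empty => simpa using ex_const 1
  | insert v s hv ih => simpa only [Finset.prod_insert hv] using (h v).mul ih

end ex

/-! ### the line field -/

variable {n : ℕ} {X : Type} [TopologicalSpace X] {A : Atl n X} {G : Type} [Group G]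
  {D : MonD A G} {H : Subgroup G} {q : ℕ} {a : D.cov G → Cn q} {L : G → E q ≃L[ℂ] E q}
  {lam : G → E q}

variable (D a) in
/-- the form `d a_1 ∧ … ∧ d a_q` on the sheet `v` -/
def bt (i : A.ι) (v : G) (x : X) : FI n → ℂ :=
  fm (D.atl G) (fun e => (a e).ofLp) (pj q) (i, v) (D.pt i v x)

variable (D a) in
/-- regular points -/
def Wd (i : A.ι) : Set X := {x | x ∈ (A.e i).source ∧ D.pt i 1 x ∉ Crit (D.atl G) univ a}

theorem Dat.holV (h : Dat D H a L lam) : Uen.HolV (D.atl G) fun e => (a e).ofLp := fun p =>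
  (EuclideanSpace.equiv (Fin q) ℂ).differentiable.comp_differentiableOn (h.hol p)

theorem Dat.bt_deck (h : Dat D H a L lam) {i : A.ι} {x : X} (hx : x ∈ (A.e i).source) (v g : G) :
    bt D a i v x = LinearMap.det (L g : E q →ₗ[ℂ] E q) • bt D a i (v * g) x := by
  rw [bt, bt, Uen.fm_of_mem _ (D.pt_mem_source (p := (i, v)) hx),
    Uen.fm_of_mem _ (D.pt_mem_source (p := (i, v * g)) hx)]
  have h1 : dF (D.atl G) (i, v) (fun e => (a e).ofLp) (D.pt i v x) =
      (L g : E q →L[ℂ] E q).comp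
        (dF (D.atl G) (i, v * g) (fun e => (a e).ofLp) (D.pt i (v * g) x)) := by
    unfold dF
    rw [read_deck D h.eqv g, fderiv_add_const]
    exact (L g).comp_fderiv
  rw [h1]
  exact wdg_comp _ _

theorem Dat.tp_bt (h : Dat D H a L lam) {i j : A.ι} {x : X} (hi : x ∈ (A.e i).source)
    (hj : x ∈ (A.e j).source) : ∃ g : G, tp A i j x (bt D a j 1 x) =
      LinearMap.det (L g : E q →ₗ[ℂ] E q) • bt D a i 1 x := by
  refine ⟨(D.c j i x)⁻¹, ?_⟩
  have h1 := h.bt_deck hi (D.c j i x) (D.c j i x)⁻¹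
  have h2 : D.pt j (1 : G) x = D.pt i (D.c j i x) x := by rw [D.pt_eq 1 hj hi, smul_eq_mul, mul_one]
  rw [mul_inv_cancel] at h1
  rw [← h1, bt, bt, (h.holV.fm_mem (pj q)).2.2.2 (i, D.c j i x) (j, 1) _
    ⟨D.pt_mem_source (p := (i, _)) hi, h2 ▸ D.pt_mem_source (p := (j, 1)) hj⟩, h2]
  rfl

theorem Dat.mem_Wd (h : Dat D H a L lam) {i : A.ι} {x : X} (hx : x ∈ Wd D a i) (v : G) :
    D.pt i v x ∉ Crit (D.atl G) univ a := by
  simpa [D.deck_pt] using not_crit_deck D h.eqv v⁻¹ hx.2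

theorem Dat.of_not_crit (h : Dat D H a L lam) {i : A.ι} {x : X} (hx : x ∈ (A.e i).source) {v : G}
    (hv : D.pt i v x ∉ Crit (D.atl G) univ a) : x ∈ Wd D a i :=
  ⟨hx, by simpa [D.deck_pt] using not_crit_deck D h.eqv v hv⟩

theorem Dat.surj (_ : Dat D H a L lam) {i : A.ι} {x : X} (hx : x ∈ Wd D a i) : Function.Surjective
    (dF (D.atl G) (i, 1) (fun e => (a e).ofLp) (D.pt i 1 x)) :=
  (surj_ofLp _ _).2 (surj_of_not_crit (mem_univ _) hx.2 (D.pt_mem_source (p := (i, 1)) hx.1))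

theorem Dat.bt_ne (h : Dat D H a L lam) {i : A.ι} {x : X} (hx : x ∈ Wd D a i) :
    bt D a i 1 x ≠ 0 := Uen.fm_ne (D.pt_mem_source (p := (i, 1)) hx.1) (li_of_surj (h.surj hx))

theorem Dat.an_bt (h : Dat D H a L lam) (i : A.ι) (v : G) (S : FI n) :
    DifferentiableOn ℂ (fun z => bt D a i v ((A.e i).symm z) S) (A.e i).target :=
  DifferentiableOn.mono ((h.holV.fm_mem (pj q)).1 (i, v) S) fun _ hz => ⟨hz, trivial⟩

theorem Dat.isOpen_Wd (h : Dat D H a L lam) (i : A.ι) : IsOpen (Wd D a i) :=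
  (D.continuousOn_pt i (1 : G)).isOpen_inter_preimage (A.e i).open_source
    (t := (Crit (D.atl G) univ a)ᶜ) (by
      rw [compl_eq_univ_sdiff]; exact isOpen_regular isOpen_univ (hol_univ h.hol))

variable [PreconnectedSpace (D.cov G)]

theorem Dat.sthM (h : Dat D H a L lam) : SThM (D.atl G) (Crit (D.atl G) univ a) :=
  sthM_crit isOpen_univ isPreconnected_univ (hol_univ h.hol) (h.reg.imp fun _ hx => ⟨trivial, hx⟩)

theorem Dat.dense_Wd (h : Dat D H a L lam) (i : A.ι) : (A.e i).source ⊆ closure (Wd D a i) := by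
  intro x hx
  refine closure_mono ?_ (mem_closure_image D.continuous_pr.continuousAt
    (h.sthM.dense_compl.open_subset_closure_inter (D.isOpen_sheet i 1) (D.pt_mem_sheet 1 hx)))
  rintro _ ⟨e, ⟨h1, h2⟩, rfl⟩
  exact ⟨h1.1, by rwa [D.pt_of_mem h1]⟩

/-- the line field of `d a_1 ∧ … ∧ d a_q` -/
def Dat.lf (h : Dat D H a L lam) : LF A q where
  κ := A.ι
  ch := id
  U i := (A.e i).source
  op i := (A.e i).open_source
  sub _ := subset_rfl
  cov := A.cover
  τ i := bt D a i 1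
  hm i _ hx S := hm_of_holAt (U := univ) ((h.an_bt i 1 S).mono inter_subset_left) isOpen_univ hx
    trivial
  deg i x _ S hS := by
    by_contra hc
    exact hS ((h.holV.fm_mem (pj q)).2.2.1 _ _ S hc)
  nf i x hx h0 := by
    obtain ⟨y, h1, h2⟩ := mem_closure_iff_nhds.1 (h.dense_Wd i hx) _ h0
    exact h.bt_ne h2 h1
  par i j x hx := by
    obtain ⟨g, hg⟩ := h.tp_bt hx.1 hx.2
    rw [id, id, hg]
    exact Uen.par_smul _ _

theorem Dat.dom (h : Dat D H a L lam) : h.lf.Dom (Wd D a) :=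
  ⟨h.isOpen_Wd, fun _ _ hx => hx.1, h.dense_Wd, fun _ _ hx => h.bt_ne hx⟩

variable {S : Sys q (D.cov G) G}

theorem Of.mem_U (hS : Of D H a L lam S) {x : D.cov G} (hx : x ∉ Crit (D.atl G) univ a) :
    x ∈ S.U := by rw [hS.U_eq]; exact hx

theorem Of.det_pow (hS : Of D H a L lam S) [H.FiniteIndex] (g : G) :
    LinearMap.det (L g : E q →ₗ[ℂ] E q) ^ H.index.factorial = 1 := by
  have h1 : ∀ g g' t, L (g * g') t + lam (g * g') = L g (L g' t + lam g') + lam g := fun g g' t => by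
    obtain ⟨x, rfl⟩ := hS.onto t
    rw [← hS.L_eq, ← hS.lam_eq, ← S.eqv, ← S.eqv, ← S.eqv, mul_smul]
  have h2 : ∀ g ∈ H, (L g : E q →ₗ[ℂ] E q) = 1 := fun g hg =>
    LinearMap.ext fun v => hS.L_eq ▸ S.LH g (hS.H_eq ▸ hg) v
  let ρ : G →* (E q →ₗ[ℂ] E q) :=
    { toFun := fun g => L g
      map_one' := h2 1 H.one_mem
      map_mul' := fun g g' => LinearMap.ext fun t => by
        have h3 := h1 g g' 0
        have h4 := h1 g g' t
        rw [map_zero, map_zero, zero_add, zero_add] at h3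
        rw [h3, map_add, add_assoc, add_left_inj] at h4
        exact h4 }
  change LinearMap.det (ρ g) ^ _ = 1
  rw [← map_pow, ← map_pow]
  exact (congrArg LinearMap.det (h2 _ (H.pow_mem_of_index_ne_zero_of_dvd
    Subgroup.FiniteIndex.index_ne_zero g fun m h h' => Nat.dvd_factorial h h'))).trans (map_one _)

theorem Of.an_hf (hS : Of D H a L lam S) (h : Dat D H a L lam) {f : D.cov G → ℂ} (hf : S.HF f)
    {p : (D.atl G).ι} {z : Cn n} (hz : z ∈ ((D.atl G).e p).target)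
    (hc : ((D.atl G).e p).symm z ∉ Crit (D.atl G) univ a) :
    AnalyticAt ℂ (fun z => f (((D.atl G).e p).symm z)) z := by
  obtain ⟨F, h1, h2⟩ := hf _ (hS.mem_U hc)
  rw [hS.a_eq] at h1 h2
  exact (AnalyticAt.comp (g := F) (f := fun z => (a (((D.atl G).e p).symm z)).ofLp) h1
    (h.holV.an p z hz)).congr
    ((((D.atl G).e p).continuousAt_symm hz).eventually h2 |>.mono fun _ h => h.symm)

theorem Of.ex (hS : Of D H a L lam S) (h : Dat D H a L lam) {f : D.cov G → ℂ} (hf : S.HF f)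
    {N : ℕ} {C : ℝ} (hb : ∀ x ∈ S.U, ‖f x‖ * min (S.rho x) 1 ^ N ≤ C) (v : G) :
    Ex h.lf (Wd D a) fun i y => f (D.pt i v y) := by
  refine ⟨2 * N, fun (i : A.ι) x (hx : x ∈ (A.e i).source) T => ?_⟩
  have ho : IsOpen ((A.e i).target \
      {z | z ∈ (A.e i).target ∧ ((D.atl G).e (i, v)).symm z ∈ Crit (D.atl G) univ a}) := by
    convert ((D.atl G).e (i, v)).isOpen_inter_preimage_symm (hS.U_eq ▸ S.op) using 1
    ext z
    exact ⟨fun h => ⟨h.1, fun h' => h.2 ⟨h.1, h'⟩⟩, fun h => ⟨h.1, fun h' => h.2 h'.2⟩⟩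
  obtain ⟨g, hg, hgf⟩ := STh.extend (A.e i).open_target (h.sthM (i, v)) ho
    (f := fun z => f (((D.atl G).e (i, v)).symm z) * bt D a i v ((A.e i).symm z) T ^ (2 * N))
    (DifferentiableOn.mul (fun z hz => (hS.an_hf h hf (p := (i, v)) hz.1
      fun h' => hz.2 ⟨hz.1, h'⟩).differentiableAt.differentiableWithinAt)
      (((h.an_bt i v T).mono sdiff_subset).pow _)) fun z hz => by
      obtain ⟨K, hK, hKz, hKO⟩ := exists_compact_subset (A.e i).open_target hz
      obtain ⟨c, hc, hl⟩ := hS.low (i, v) K hK hKO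
      refine ⟨K, mem_interior_iff_mem_nhds.1 hKz, C / c ^ N, fun w hw => ?_⟩
      have h1 : c * ‖bt D a i v ((A.e i).symm w) T‖ ^ 2 ≤
          min (S.rho (((D.atl G).e (i, v)).symm w)) 1 := by
        rw [bt, Uen.fm_of_mem _ (D.pt_mem_source (p := (i, v)) ((A.e i).map_target hw.2.1))]
        have h2 := Uen.dF_symm (A := D.atl G) (i := (i, v)) (fun e => (a e).ofLp) hw.2.1
        change dF _ _ _ (D.pt i v _) = _ at h2
        rw [h2]
        unfold Top.wdg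
        split_ifs with hT
        · have := hl w hw.1 (fun l => EuclideanSpace.single (T.orderEmbOfFin hT l) 1)
            fun l => by simp
          rw [hS.a_eq] at this
          exact this
        · simpa using (S.sec _ (hS.mem_U fun h' => hw.2.2 ⟨hw.2.1, h'⟩)).1.le
      rw [le_div_iff₀ (pow_pos hc N), norm_mul, norm_pow, pow_mul, mul_assoc, ← mul_pow,
        mul_comm _ c]
      exact (mul_le_mul_of_nonneg_left (pow_le_pow_left₀ (by positivity) h1 N)
        (norm_nonneg _)).trans (hb _ (hS.mem_U fun h' => hw.2.2 ⟨hw.2.1, h'⟩))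
  refine ⟨fun y => LinearMap.det (L v : E q →ₗ[ℂ] E q) ^ (2 * N) * g (A.e i y), (Hm.const _ _).mul
    (hm_chart hx (R266.SCV.analyticOnNhd_of_differentiableOn (A.e i).open_target hg _
      ((A.e i).map_source hx))), Eventually.of_forall fun y hy => ?_⟩
  have h3 : ((D.atl G).e (i, v)).symm (A.e i y) = D.pt i v y :=
    congrArg (D.pt i v) ((A.e i).left_inv hy.1)
  change _ * g (A.e i y) = f (D.pt i v y) * bt D a i 1 y T ^ _
  rw [hgf _ ⟨(A.e i).map_source hy.1, fun h' => h.mem_Wd hy v (h3 ▸ h'.2)⟩, h3,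
    (A.e i).left_inv hy.1, h.bt_deck hy.1 1 v, one_mul, Pi.smul_apply, smul_eq_mul, mul_pow]
  ring

/-- **the first alternative does not occur** -/
theorem not_big (hN : NoBog A) [H.FiniteIndex] : NBig D H := by
  classical
  intro q hq a L lam S h hS hB
  have := Fintype.ofFinite (G ⧸ H)
  obtain ⟨e0, he0⟩ := h.reg
  obtain ⟨i, hi⟩ := A.cover (D.pr e0)
  have hx0 : D.pr e0 ∈ Wd D a i := h.of_not_crit hi (by rwa [D.pt_co hi])
  set x0 := D.pr e0
  obtain ⟨f, F, N, C, hf, hinv, hb, hF, -, -, hd⟩ := hB (D.pt i 1 x0) (hS.mem_U hx0.2)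
  have hex := fun k v => hS.ex h (hf (some k)) (hb (some k)) v
  have hm : ∀ k v, ∀ y ∈ Wd D a i, Hm A (fun y => f (some k) (D.pt i v y)) y := fun k v y hy =>
    (hex k v).elim fun _ h' => h'.hm h.dom (a := i) hy
  have hH : ∀ k j v, ∀ g ∈ H, ∀ y ∈ Wd D a j,
      f (some k) (D.pt j (v * g) y) = f (some k) (D.pt j v y) := fun k j v g hg y hy => by
    rw [← hinv _ g⁻¹ (hS.H_eq ▸ H.inv_mem hg) (D.pt j v y) (hS.mem_U (h.mem_Wd hy v)), D.deck_pt,
      inv_inv]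
  have hli : LinearIndependent ℂ fun k => df A i (fun y => f (some k) (D.pt i 1 y)) x0 := by
    convert li_of_surj (h.surj hx0) with k
    obtain ⟨h1, h2⟩ := hF (some k)
    rw [hS.a_eq] at h1 h2 hd
    rw [df_congr' hi (((D.continuousOn_pt i 1).continuousAt
      ((A.e i).open_source.mem_nhds hi)).eventually h2)]
    have h3 := (h.holV.anAt (D.pt_mem_source (p := (i, 1)) hi)).differentiableAt.hasFDerivAt
    have h4 := h1.differentiableAt.hasFDerivAt
    rw [show fderiv ℂ (F (some k)) _ = pj q k from ContinuousLinearMap.ext (hd k),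
      ← ((D.atl G).e (i, 1)).left_inv (D.pt_mem_source (p := (i, 1)) hi)] at h4
    exact (HasFDerivAt.comp (f := fun z => (a (((D.atl G).e (i, 1)).symm z)).ofLp) _ h4 h3).fderiv
  obtain ⟨O, hO1, hO, hxO⟩ := _root_.mem_nhds_iff.1 (inter_mem ((h.isOpen_Wd i).mem_nhds hx0)
    (li_ev (fun k => cont_df (hm k 1 x0 hx0) hi) hli))
  let φ : A.ι → G → X → E q := fun j v y k => f (some k) (D.pt j v y)
  obtain ⟨O', h1, hO', ⟨x, hx⟩, h2⟩ := exists_gen (fun v : G ⧸ H => φ i v.out) (φ i 1) Finset.univ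
    hO ⟨x0, hxO⟩ (fun v y hy => continuousAt_pi.2 fun k => (hm k _ y (hO1 hy).1).cont)
    fun y hy => continuousAt_pi.2 fun k => (hm k _ y (hO1 hy).1).cont
  obtain ⟨hxW, hxl⟩ := hO1 (h1 hx)
  have h3 : ∀ v : G ⧸ H, ∃ j : Fin q, φ i v.out x ≠ φ i 1 x → φ i v.out x j ≠ φ i 1 x j := fun v => by
    by_cases hv : φ i v.out x = φ i 1 x
    · exact ⟨⟨0, hq⟩, fun h => absurd hv h⟩
    · exact (Function.ne_iff.1 hv).imp fun _ h _ => h
  choose j hj using h3
  let R : E q → ℂ := fun t => ∏ v ∈ Finset.univ.filter fun v : G ⧸ H => φ i v.out x ≠ φ i 1 x,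
    (t (j v) + -φ i v.out x (j v))
  let P : Fin q → E q → ℂ := fun k t => 1 + (t k + -φ i 1 x k) * (R t * R t)
  have hR : ∀ v, Ex h.lf (Wd D a) fun i y => R (φ i v y) := fun v =>
    ex_prod _ fun w => (hex _ v).add (ex_const _)
  have hP : ∀ k v, Ex h.lf (Wd D a) fun i y => P k (φ i v y) := fun k v =>
    (ex_const 1).add (((hex k v).add (ex_const _)).mul ((hR v).mul (hR v)))
  let g : Fin (q + 1) → A.ι → X → ℂ :=
    Fin.cons (fun _ _ => 1) fun k i y => ∏ v : G ⧸ H, P k (φ i v.out y)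
  have hg : ∀ k, Ex h.lf (Wd D a) (g k) := fun k =>
    Fin.cases (ex_const 1) (fun k => ex_prod _ fun v : G ⧸ H => hP k v.out) k
  choose m hm' using hg
  have htr : ∀ k i i', ∀ y ∈ Wd D a i ∩ Wd D a i', g k i y = g k i' y := fun k i i' y hy => by
    refine Fin.cases rfl (fun k => ?_) k
    refine Fintype.prod_equiv (MulAction.toPerm (D.c i i' y)) _ _ fun v => congrArg (P k) ?_
    funext k'
    have h4 := hH k' i' (D.c i i' y • v).out _ (MonD.mk_out_mul H (v := v) (w := D.c i i' y • v) rfl) y hy.2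
    rw [mul_inv_cancel_left] at h4
    exact (congrArg (f (some k')) (D.pt_eq v.out hy.1.1 hy.2.1)).trans h4
  refine hN q hq h.lf (Wd D a) (H.index.factorial * ∑ k, m k) g h.dom (fun k => ⟨ext_le (hm' k)
    ((Finset.single_le_sum (fun _ _ => Nat.zero_le _) (Finset.mem_univ k)).trans
      (Nat.le_mul_of_pos_left _ (Nat.factorial_pos _))), fun i i' y hy c hc => ?_⟩) i x hxW
    one_ne_zero ?_
  · obtain ⟨γ, hγ⟩ := h.tp_bt hy.1.1 hy.2.1
    rw [smul_left_injective ℂ (h.bt_ne hy.1) (hc.symm.trans hγ), pow_mul, hS.det_pow, one_pow,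
      one_mul]
    exact htr k i i' y hy
  have hR0 : ∀ v : G ⧸ H, φ i v.out x ≠ φ i 1 x → R (φ i v.out x) = 0 := fun v hv =>
    Finset.prod_eq_zero (Finset.mem_filter.2 ⟨Finset.mem_univ v, hv⟩) (add_neg_cancel _)
  have hR1 : R (φ i 1 x) ≠ 0 := Finset.prod_ne_zero_iff.2 fun v hv => by
    rw [← sub_eq_add_neg]
    exact sub_ne_zero.2 (hj v (Finset.mem_filter.1 hv).2).symm
  have hRm : ∀ v, Hm A (fun y => R (φ i v y)) x := fun v =>
    (hR v).elim fun _ h' => h'.hm h.dom (a := i) hxW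
  have h5 : ∀ k (v : G ⧸ H), df A i (fun y => P k (φ i v.out y)) x =
      (if φ i v.out x = φ i 1 x then R (φ i 1 x) * R (φ i 1 x) else 0) •
        df A i (fun y => φ i 1 y k) x := fun k v => by
    have h6 : df A i (fun y => P k (φ i v.out y)) x = df A i (fun y =>
      (φ i v.out y k + -φ i 1 x k) * (R (φ i v.out y) * R (φ i v.out y))) x := fderiv_const_add _
    rw [h6, df_mul' ((hm k _ x hxW).add (Hm.const _ _)) ((hRm _).mul (hRm _)) hxW.1,
      df_mul' (hRm _) (hRm _) hxW.1]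
    split_ifs with hv
    · have h7 : df A i (fun y => φ i v.out y k + -φ i 1 x k) x = df A i (fun y => φ i v.out y k) x :=
        fderiv_add_const _
      have h8 : f (some k) (D.pt i v.out x) = φ i 1 x k := congrFun hv k
      rw [h7, df_congr' (f := fun y => φ i v.out y k) (g := fun y => φ i 1 y k) hxW.1
        (mem_of_superset (hO'.mem_nhds hx) fun y hy =>
          congrFun (((h2 v (Finset.mem_univ v)).resolve_left fun h => h x hx hv) y hy) k)]
      ext w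
      simp [hv, h8]
    · ext w
      simp [hR0 v hv]
  have h8 : ∀ k : Fin q, df A i (fun y => g k.succ i y / g 0 i y) x =
      (∑ v : G ⧸ H, if φ i v.out x = φ i 1 x then R (φ i 1 x) * R (φ i 1 x) else 0) •
        df A i (fun y => φ i 1 y k) x := fun k => by
    simp only [g, Fin.cons_succ, Fin.cons_zero, div_one]
    rw [df_prod_one _ hxW.1 (fun v => (hP k _).elim fun _ h' => h'.hm h.dom (a := i) hxW) fun v => by
      by_cases hv : φ i v.out x = φ i 1 x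
      · simp [P, hv]
      · simp [P, hR0 v hv]]
    exact (Finset.sum_congr rfl fun v _ => h5 k v).trans Finset.sum_smul.symm
  change LinearIndependent ℂ fun k : Fin q => df A i (fun y => g k.succ i y / g 0 i y) x
  simp only [h8]
  refine (li_smul_iff ?_).2 hxl
  rw [← Finset.sum_filter, Finset.sum_const, nsmul_eq_mul]
  refine mul_ne_zero (Nat.cast_ne_zero.2 (Finset.card_ne_zero.2 ⟨((1 : G) : G ⧸ H),
    Finset.mem_filter.2 ⟨Finset.mem_univ _, funext fun k => ?_⟩⟩)) (mul_ne_zero hR1 hR1)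
  have h9 := hH k i 1 ((1 : G) : G ⧸ H).out (by
    simpa using QuotientGroup.eq.1 (QuotientGroup.out_eq' ((1 : G) : G ⧸ H)).symm) x hxW
  rwa [one_mul] at h9

end Crest.Agent.X261.Fib.Mn
end
end

-- ▼ part X261/B88/Fin
section

/-!
# Row 261, B (helper88), file `Fin`: the proved packages are plugged in
-/

set_option autoImplicit false
set_option linter.unusedSectionVars false

namespace Crest.Agent.X261.B88

open Crest.Agent.R275.Geo Crest.Agent.R275.GC293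
open Crest.Agent.R273.Kah_333 Crest.Agent.R273.UCov_914
open Crest.Agent.X261.Fib.Mn

theorem setupStmt : SetupStmt := fun _ _ _ _ _ _ _ _ hA P K _ hN _ _ D _ N _ =>
  End.setup' D hA P K hN N

/-- the separation of the components of the fibres -/
def SepStmt : Prop :=
  ∀ (n : ℕ) (X : Type) [TopologicalSpace X] [T2Space X] [CompactSpace X] [ConnectedSpace X]
    (A : Atl n X) [Finite A.ι], GoodA A → Part A → Kah A →
    ∀ (Γ : Type) [Group Γ] (D : MonD A Γ), ConnectedSpace (D.cov Γ) →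
    ∀ (H : Subgroup Γ), H.Normal → H.FiniteIndex → SepH D H

theorem fibStmt_of_sep (h : SepStmt) : FibStmt :=
  fibStmt_of fun n X _ _ _ _ A _ hA P K _ hB Γ _ D hc H h1 h2 =>
    have := (Ans.HA.of (D.atl Γ)).locallyConnected
    ⟨fun _ S => S.dich, not_big hB, h n X A hA P K Γ D hc H h1 h2⟩

theorem halfB_of' (hS : SepStmt) (hM : FamStmt) (hN : NIStmt) (hR : Rel.RelStmt)
    (hG : Gauss.GaussStmt) : Sk.HalfB :=
  halfB_of setupStmt (fibStmt_of_sep hS) hM hN (relStmt_of hR) hG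

end Crest.Agent.X261.B88
end

-- ▼ part X261/Sep93/A
section

/-!
# Row 261, FIB/Sep (helper93), file `A`: pointwise calculus

* `ep0 A a` : the polyvector dual to `da_1 ∧ … ∧ da_q`; `isV_ep0`, `ep0_hol`;
* `ps a t` : the weight `|a - t|²`; `hq_ps`, `gq_le`;
* `delV_zero` : `Φ(a) ep0` is co-closed;
* `exists_ratio` : a holomorphic polyvector killed by all `da_k` is `h ep0` in degree `n - q`;
* `eval_le` : the `L²` mean value inequality at a point.
-/

set_option autoImplicit false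
set_option linter.unusedSectionVars false

open Set Filter Topology Complex Matrix MeasureTheory Metric
open scoped ContDiff Matrix ComplexConjugate ENNReal

namespace Crest.Agent.X261.Sep93

open Crest.Agent.R275 Crest.Agent.R275.Geo Crest.Agent.R275.Core144
open Crest.Agent.R275.OmT75 (dl dj dj_holo dl_chain)
open Crest.Agent.R273.Defs_333 Crest.Agent.R273.Kah_333 Crest.Agent.R273.Vm_333
open Crest.Agent.R273.Fock_243
open Crest.Agent.R273.Berezin_505 (Sbi Sbi_mulVec)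
open Crest.Agent.R273.Calc_243 (dS dV dS_congr dV_smul dV_const_mulVec)
open Crest.Agent.R273.BKNa_37 (IsV delV dbV dl_eq_dS)
open Crest.Agent.T223.Hm (hq ix ix_mem cz sz Tz isOpen_Tz cz_mem sz_cz contOn_sz)
open Crest.Agent.X261.Top (wdg dW HolV)
open Crest.Agent.X261.Jet.Tb
open Crest.Agent.X277.AN (gf gq)

noncomputable section

variable {n q : ℕ} {M : Type} [TopologicalSpace M] {A : Atl n M} {a : M → Cn q} {i j : A.ι}
  {x : M}

theorem dA (ha : HolV A univ a) (i : A.ι) (k : Fin q) :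
    DifferentiableOn ℂ (fun z => a ((A.e i).symm z) k) (A.e i).target :=
  (EuclideanSpace.proj k : Cn q →L[ℂ] ℂ).differentiable.comp_differentiableOn
    ((ha i).mono fun _ hz => ⟨hz, mem_univ _⟩)

theorem dAt (ha : HolV A univ a) (hx : x ∈ (A.e i).source) (k : Fin q) :
    DifferentiableAt ℂ (fun z => a ((A.e i).symm z) k) (A.e i x) :=
  (dA ha i k).differentiableAt ((A.e i).open_target.mem_nhds ((A.e i).map_source hx))

theorem dp_eq (ha : HolV A univ a) (hx : x ∈ (A.e i).source) (k : Fin q) (c : Fin n) :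
    dp A i a x k c = fderiv ℂ (fun z => a ((A.e i).symm z) k) (A.e i x)
      (EuclideanSpace.single c 1) := dj_holo (dAt ha hx k)

theorem dp_hol (ha : HolV A univ a) (i : A.ι) (k : Fin q) (c : Fin n) :
    HolAt A i univ fun y => dp A i a y k c := by
  have h1 := (Crest.Agent.R266.SCV.analyticOnNhd_of_differentiableOn (A.e i).open_target
    (dA ha i k)).fderiv.differentiableOn.clm_apply
    (differentiableOn_const (EuclideanSpace.single c (1 : ℂ) : Cn n))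
  refine (h1.mono inter_subset_left).congr fun z hz => ?_
  refine (dp_eq ha ((A.e i).map_target hz.1) k c).trans ?_
  rw [(A.e i).right_inv hz.1]

theorem dW_hol (ha : HolV A univ a) (i : A.ι) (S : FI n) :
    HolAt A i univ fun y => dW A i a y S := by
  by_cases h : S.card = q
  · have : (fun y => dW A i a y S) = fun y =>
        (Matrix.of fun k l : Fin q => dp A i a y k (S.orderEmbOfFin h l)).det := by
      funext y
      exact dif_pos h
    rw [this]
    simp only [Matrix.det_apply']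
    exact HolAt.sum _ fun σ _ => HolAt.const_mul _ (HolAt.prod _ fun k _ => dp_hol ha i _ _)
  · exact (holAt_const 0).congr fun y _ _ => (dg_dW S h).symm

theorem dW_tr (ha : HolV A univ a) (hx : x ∈ (A.e i).source ∩ (A.e j).source) :
    dW A i a x = Gam (Jm A i j x)ᵀ *ᵥ dW A j a x := by
  rw [dW_dp, dW_dp, Gam_wdg]
  congr 1
  funext k c
  rw [dp, dl_chain (j := j) (f := fun y => a y k) ((dAt ha hx.2 k).restrictScalars ℝ) hx c]
  simp [Matrix.mulVec, dotProduct, dp]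

/-- the polyvector dual to `da_1 ∧ … ∧ da_q` -/
def ep0 (A : Atl n M) (a : M → Cn q) (i : A.ι) (x : M) : FI n → ℂ := Sbi ℂ n *ᵥ dW A i a x

theorem ep0_hol (ha : HolV A univ a) (i : A.ι) (S : FI n) :
    HolAt A i univ fun y => ep0 A a i y S := by
  simp only [ep0, Sbi_mulVec]
  exact (dW_hol ha i _).const_mul _

theorem smAt_of_hol {f : M → ℂ} (h : HolAt A i univ f) : A.SmAt i f :=
  (h.contDiffOn isOpen_univ).mono fun _ hz => ⟨hz, mem_univ _⟩

theorem isV_ep0 (ha : HolV A univ a) : IsV (KB A) (ep0 A a) where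
  sm i S := smAt_of_hol (ep0_hol ha i S)
  tr i j x hx := by
    rw [ep0, ep0, dW_tr ha hx, KB_g hx]
    exact Gam_Sbi (by rw [J_mul i j i ⟨hx, hx.1⟩, J_self i hx.1]) _

theorem ep0_ne {R : Set M} (H : Sbm A R a) (hx : x ∈ R) (hi : x ∈ (A.e i).source) :
    ep0 A a i x ≠ 0 := fun h => H.dW_ne hx hi (Sbi_eq_zero h)

/-! ### the weight -/

/-- the weight `|a - t|²` -/
def ps (a : M → Cn q) (t : Cn q) (x : M) : ℝ := ∑ k, ‖a x k - t k‖ ^ 2

theorem ps_eq (t : Cn q) (x : M) : ps a t x = ‖a x - t‖ ^ 2 := by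
  rw [EuclideanSpace.norm_sq_eq]
  rfl

theorem ps_nonneg (t : Cn q) (x : M) : 0 ≤ ps a t x := by
  rw [ps_eq]
  positivity

theorem sm_a (ha : HolV A univ a) : A.Sm a := fun i _ hz =>
  (Crest.Agent.R273.FS_333.contDiffAt_of_hol (A.e i).open_target
    ((ha i).mono fun _ hz => ⟨hz, mem_univ _⟩) hz).contDiffWithinAt

theorem sm_ps (ha : HolV A univ a) (t : Cn q) : A.Sm (ps a t) := fun i => by
  simp only [ps_eq]
  exact ((sm_a ha i).sub contDiffOn_const).norm_sq ℝ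

theorem fd_sub (ha : HolV A univ a) (t : Cn q) (hx : x ∈ (A.e i).source) (k : Fin q) (c : Fin n) :
    fderiv ℂ (fun z => a ((A.e i).symm z) k - t k) (A.e i x) (EuclideanSpace.single c 1) =
      dp A i a x k c := by
  rw [fderiv_sub_const, dp_eq ha hx]

theorem hq_ps (ha : HolV A univ a) (t : Cn q) (hx : x ∈ (A.e i).source) (ξ : Fin n → ℂ) :
    hq (hsf A (ps a t) i x) ξ = ∑ k, ‖∑ c, dp A i a x k c * ξ c‖ ^ 2 := by
  have h1 : ∀ b c, hsf A (ps a t) i x b c = ∑ k, dp A i a x k b * conj (dp A i a x k c) :=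
    fun b c => by
      have h2 := Crest.Agent.R273.FS_333.hess_sq (F := fun z k => a ((A.e i).symm z) k - t k)
        (A.e i).open_target (fun k => (dA ha i k).sub_const _) ((A.e i).map_source hx) b c
      simp only [fd_sub ha t hx] at h2
      exact h2
  have h2 : star ξ ⬝ᵥ ((hsf A (ps a t) i x)ᵀ *ᵥ ξ) =
      ∑ k, (∑ c, dp A i a x k c * ξ c) * conj (∑ c, dp A i a x k c * ξ c) := by
    simp only [dotProduct, Matrix.mulVec, Matrix.transpose_apply, h1, map_sum, map_mul,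
      Pi.star_apply, Complex.star_def, Finset.sum_mul, Finset.mul_sum]
    refine Finset.sum_comm.trans ?_
    refine (Finset.sum_congr rfl fun _ _ => Finset.sum_comm).trans (Finset.sum_comm.trans ?_)
    refine Finset.sum_congr rfl fun _ _ => Finset.sum_comm.trans ?_
    exact Finset.sum_congr rfl fun _ _ => Finset.sum_congr rfl fun _ _ => by ring
  unfold hq
  rw [h2, Complex.re_sum]
  refine Finset.sum_congr rfl fun k _ => ?_
  rw [Complex.mul_conj, Complex.ofReal_re, Complex.normSq_eq_norm_sq]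

theorem gq_le (ha : HolV A univ a) (t : Cn q) (hx : x ∈ (A.e i).source) (ξ : Fin n → ℂ) :
    gq A (ps a t) i x ξ ≤ ps a t x * hq (hsf A (ps a t) i x) ξ := by
  have h1 : ∀ c, gf A (ps a t) i x c = ∑ k, dp A i a x k c * conj (a x k - t k) := fun c => by
    have h2 := Crest.Agent.R273.FS_333.wd_sq' (F := fun z k => a ((A.e i).symm z) k - t k)
      (A.e i).open_target (fun k => (dA ha i k).sub_const _) ((A.e i).map_source hx) c
    simp only [fd_sub ha t hx, (A.e i).left_inv hx] at h2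
    exact h2
  have h2 : ∑ c, gf A (ps a t) i x c * ξ c =
      ∑ k, conj (a x k - t k) * ∑ c, dp A i a x k c * ξ c := by
    simp only [h1, Finset.sum_mul, Finset.mul_sum]
    exact Finset.sum_comm.trans
      (Finset.sum_congr rfl fun _ _ => Finset.sum_congr rfl fun _ _ => by ring)
  rw [gq, h2, hq_ps ha t hx, ps]
  refine (pow_le_pow_left₀ (norm_nonneg _) (norm_sum_le _ _) 2).trans ?_
  simp only [norm_mul, Complex.norm_conj]
  exact Finset.sum_mul_sq_le_sq_mul_sq _ _ _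

/-! ### co-closed fields -/

theorem delV_congr {L : LB A} (h : HM L) {v : A.ι → M → FI n → ℂ} {u : M → FI n → ℂ}
    (hx : x ∈ (A.e i).source) (e : ∀ᶠ y in 𝓝 x, (h.w i y : ℂ) • v i y = u y) :
    delV h v i x = ((h.w i x : ℂ))⁻¹ •
      ∑ l, iW (ep l) *ᵥ dV (-I) l (fun z => u ((A.e i).symm z)) (A.e i x) := by
  unfold delV
  congr 1
  refine Finset.sum_congr rfl fun l _ => ?_
  congr 1
  funext T
  exact (dl_congr' (g := fun y => u y T) hx (e.mono fun y hy => congrFun hy T) l).trans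
    (dl_eq_dS _ _ _ _)

theorem delV_zero {L : LB A} (h : HM L) {v : A.ι → M → FI n → ℂ} {R : Set M} (H : Sbm A R a)
    (hx : x ∈ R) (hi : x ∈ (A.e i).source) {Φ : Cn q → ℂ} (hΦ : DifferentiableAt ℝ Φ (a x))
    (e : ∀ᶠ y in 𝓝 x, (h.w i y : ℂ) • v i y = Φ (a y) • ep0 A a i y) : delV h v i x = 0 := by
  have h1 : DifferentiableAt ℝ (fun z => Φ (a ((A.e i).symm z))) (A.e i x) :=
    DifferentiableAt.comp (g := Φ) _ (by rwa [(A.e i).left_inv hi])
      ((H.anAt hx hi).differentiableAt.restrictScalars ℝ)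
  have h2 : ∀ S, DifferentiableAt ℝ (fun z => dW A i a ((A.e i).symm z) S) (A.e i x) := fun S =>
    ((H.dW_hol i S).diffAt H.opn hi hx).restrictScalars ℝ
  have h3 : ∀ S, DifferentiableAt ℝ (fun z => ep0 A a i ((A.e i).symm z) S) (A.e i x) := fun S => by
    simp only [ep0, Sbi_mulVec]
    exact (h2 _).const_mul _
  have h4 : ∀ l, dV (-I) l (fun z => ep0 A a i ((A.e i).symm z)) (A.e i x) =
      Sbi ℂ n *ᵥ fun S => dl A i l (fun y => dW A i a y S) x := fun l => by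
    refine (dV_const_mulVec _ h2).trans ?_
    congr 1
    funext S
    rw [dl_eq_dS]
    rfl
  have h5 := H.eW_dl_comp hx hi (b := fun y => Φ (a y)) hΦ (Eventually.of_forall fun _ => rfl)
  have h6 := H.dW_closed hx hi
  rw [delV_congr h hi e]
  simp only [dV_smul h1 h3, h4]
  simp only [Matrix.mulVec_add, Matrix.mulVec_smul, Finset.sum_add_distrib,
    (A.e i).left_inv hi, ep0, iW_Sbi]
  rw [eW_eq_sum, Matrix.sum_mulVec] at h5
  simp only [Matrix.smul_mulVec, dl_eq_dS] at h5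
  have h7 : ∑ l, dS (-I) l (fun z => Φ (a ((A.e i).symm z))) (A.e i x) •
      -(Sbi ℂ n *ᵥ (eW (ep l) *ᵥ dW A i a x)) = 0 := by
    simp only [smul_neg, Finset.sum_neg_distrib, ← Matrix.mulVec_smul (Sbi ℂ n)]
    rw [← Matrix.mulVec_sum, h5, Matrix.mulVec_zero, neg_zero]
  rw [h7, ← Finset.smul_sum, Finset.sum_neg_distrib, ← Matrix.mulVec_sum, h6, Matrix.mulVec_zero,
    neg_zero, smul_zero, add_zero, smul_zero]

theorem delV_zero' {L : LB A} (h : HM L) {v : A.ι → M → FI n → ℂ} (hi : x ∈ (A.e i).source)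
    (e : ∀ᶠ y in 𝓝 x, v i y = 0) : delV h v i x = 0 := by
  rw [delV_congr h (u := fun _ => 0) hi (e.mono fun y hy => by rw [hy, smul_zero])]
  have : ∀ l, dV (-I) l (fun _ : Cn n => (0 : FI n → ℂ)) (A.e i x) = 0 := fun l => by
    funext S
    simp [dV, dS]
  simp [this]

theorem dbV_congr {v w : A.ι → M → FI n → ℂ} (hi : x ∈ (A.e i).source)
    (e : ∀ᶠ y in 𝓝 x, v i y = w i y) (k : Fin n) : dbV v i k x = dbV w i k x := by
  funext T
  exact dS_congr (s := I) (ev_read (P := fun y => v i y T = w i y T) hi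
    (e.mono fun y hy => congrFun hy T))

theorem dbV_zero {v : A.ι → M → FI n → ℂ} (hi : x ∈ (A.e i).source)
    (e : ∀ᶠ y in 𝓝 x, v i y = 0) (k : Fin n) : dbV v i k x = 0 := by
  rw [dbV_congr (w := fun _ _ => 0) hi e]
  funext T
  simp [dbV, Atl.db, dbj]

/-! ### the ratio -/

theorem exists_ratio [Countable A.ι] (ha : HolV A univ a) {R : Set M} (H : Sbm A R a)
    {V : A.ι → M → FI n → ℂ} (hV : IsV (KB A) V) (hh : ∀ i S, HolAt A i univ fun y => V i y S)
    {r : ℕ} (hr : q + r = n)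
    (h0 : ∀ i, ∀ x ∈ R, x ∈ (A.e i).source → ∀ k, iW (dp A i a x k) *ᵥ V i x = 0) :
    ∃ h : M → ℂ, (∀ i, HolAt A i R h) ∧
      ∀ i, ∀ x ∈ R, x ∈ (A.e i).source → prj r (V i x) = h x • ep0 A a i x := by
  have h1 : ∀ x, ∃ c : ℂ, x ∈ R → prj r (V (ix A x) x) = c • ep0 A a (ix A x) x := fun x => by
    by_cases hx : x ∈ R
    · obtain ⟨c, hc⟩ := eq_smul_Sbi hr (H.dual hx (ix_mem x)).choose_spec (dg_prj r _)
        fun k => iW_prj (h0 _ x hx (ix_mem x) k) r
      exact ⟨c, fun _ => hc⟩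
    · exact ⟨0, fun h => absurd h hx⟩
  choose h hc using h1
  have h2 : ∀ i, ∀ x ∈ R, x ∈ (A.e i).source → prj r (V i x) = h x • ep0 A a i x :=
    fun i x hx hi => by
      rw [hV.tr i _ x ⟨hi, ix_mem x⟩, (isV_ep0 ha).tr i _ x ⟨hi, ix_mem x⟩, prj_smul, ← Gam_prj,
        hc x hx, Matrix.mulVec_smul, smul_comm]
  refine ⟨h, fun i z hz => ?_, h2⟩
  have hi := (A.e i).map_target hz.1
  obtain ⟨S, hS⟩ := Function.ne_iff.1 (ep0_ne H hz.2 hi)
  have h3 := (ep0_hol ha i S).diffAt isOpen_univ hi (mem_univ _)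
  have h4 : DifferentiableAt ℂ (fun w => prj r (V i ((A.e i).symm w)) S) z := by
    unfold prj
    split_ifs
    · simpa only [(A.e i).right_inv hz.1] using (hh i S).diffAt isOpen_univ hi (mem_univ _)
    · exact differentiableAt_const _
  rw [(A.e i).right_inv hz.1] at h3
  refine ((h4.fun_mul (h3.fun_inv hS)).congr_of_eventuallyEq ?_).differentiableWithinAt
  filter_upwards [(isOpen_ti H.opn).mem_nhds hz, h3.continuousAt.eventually_ne hS] with w hw hw'
  rw [h2 i _ hw.2 ((A.e i).map_target hw.1), Pi.smul_apply, smul_eq_mul,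
    mul_inv_cancel_right₀ hw']

/-! ### the mean value inequality -/

theorem eval_le [Countable A.ι] [MeasurableSpace M] [BorelSpace M] (vol : HM (KB A)⁻¹)
    {R N : Set M} (hR : IsOpen R) (hx : x ∈ R) (hi : x ∈ (A.e i).source) (hN : N ∈ 𝓝 x)
    {en : M → ℝ} (hc : ContinuousAt en x) (h0 : 0 < en x) :
    ∃ C : ℝ, 0 ≤ C ∧ ∀ f : M → ℂ, HolAt A i R f → ∀ η : ℝ, 0 ≤ η →
      ∫⁻ y in N, ENNReal.ofReal (‖f y‖ ^ 2 * en y) ∂(vm vol) ≤ ENNReal.ofReal η →
      ‖f x‖ ^ 2 ≤ C * η := by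
  have hm := half_pos h0
  obtain ⟨O, h1, hO, hxO⟩ := _root_.mem_nhds_iff.1 (inter_mem (inter_mem hN
    ((A.e i).open_source.mem_nhds hi)) (hc.eventually (lt_mem_nhds (half_lt_self h0))))
  obtain ⟨W, hW, C, hC, H⟩ := geG_cz vol hi O (hO.mem_nhds hxO)
  have hD : IsOpen (Tz A i ∩ sz A i ⁻¹' R) :=
    (contOn_sz i).isOpen_inter_preimage (isOpen_Tz i) hR
  obtain ⟨s, hs, h2⟩ := Metric.nhds_basis_closedBall.mem_iff.1 (inter_mem hW (hD.mem_nhds
    ⟨cz_mem hi, by rw [mem_preimage, sz_cz hi]; exact hx⟩))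
  set b := volume (closedBall (cz A i x) s) with hb
  have hb0 : b ≠ 0 := (measure_closedBall_pos _ _ hs).ne'
  have hb1 : b ≠ ⊤ := measure_closedBall_lt_top.ne
  refine ⟨(b⁻¹ * C).toReal * (en x / 2)⁻¹, by positivity, fun f hf η hη hI => ?_⟩
  have h3 := Crest.Agent.R271.RExt747.submean (f := fun z => f (sz A i z)) hD
    (DifferentiableOn.comp (g := fun z => f ((A.e i).symm z)) (f := fun z => WithLp.toLp 2 z) hf
      (EuclideanSpace.equiv (Fin n) ℂ).symm.differentiable.differentiableOn fun z hz => hz)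
    (h2.trans inter_subset_right)
  rw [sz_cz hi] at h3
  have h4 : ∫⁻ y in O, ‖f (sz A i (cz A i y))‖ₑ ^ 2 ∂(vm vol) ≤
      ENNReal.ofReal ((en x / 2)⁻¹ * η) := by
    rw [ENNReal.ofReal_mul (inv_pos.2 hm).le]
    refine le_trans ?_ (mul_le_mul_right ((lintegral_mono_set fun y hy => (h1 hy).1.1).trans hI) _)
    rw [← lintegral_const_mul' _ _ ENNReal.ofReal_ne_top]
    refine lint_mono_on hO.measurableSet subset_rfl fun y hy => ?_
    rw [sz_cz (h1 hy).1.2, ← ofReal_norm, ← ENNReal.ofReal_pow (norm_nonneg _),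
      ← ENNReal.ofReal_mul (inv_pos.2 hm).le]
    refine ENNReal.ofReal_le_ofReal ?_
    rw [le_inv_mul_iff₀ hm, mul_comm]
    exact mul_le_mul_of_nonneg_left (le_of_lt (h1 hy).2) (sq_nonneg _)
  have h5 : ‖f x‖ₑ ^ 2 ≤ b⁻¹ * C * ENNReal.ofReal ((en x / 2)⁻¹ * η) := by
    rw [mul_assoc, ← ENNReal.mul_le_iff_le_inv hb0 hb1]
    exact h3.trans ((lintegral_mono_set (h2.trans inter_subset_left)).trans
      ((H fun z => ‖f (sz A i z)‖ₑ ^ 2).trans (mul_le_mul_right h4 _)))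
  have h6 : b⁻¹ * C ≠ ⊤ := ENNReal.mul_ne_top (ENNReal.inv_ne_top.2 hb0) hC.ne
  rw [← ofReal_norm, ← ENNReal.ofReal_pow (norm_nonneg _), ← ENNReal.ofReal_toReal h6,
    ← ENNReal.ofReal_mul ENNReal.toReal_nonneg,
    ENNReal.ofReal_le_ofReal_iff (by positivity)] at h5
  rwa [mul_assoc]

end

end Crest.Agent.X261.Sep93
end

-- ▼ part X261/Sep93/B
section

/-!
# Row 261, FIB/Sep (helper93), file `B`: the `L²` construction

`Dt.exists_sep` : on a complete Kaehler manifold, a holomorphic function on the regular set of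
`a` separates a point of a proper tube from a point of the same fibre outside the tube.
-/

set_option autoImplicit false
set_option linter.unusedSectionVars false

open Set Filter Topology Complex Matrix MeasureTheory Metric
open scoped ContDiff Matrix ComplexConjugate ENNReal

namespace Crest.Agent.X261.Sep93

open Crest.Agent.R275 Crest.Agent.R275.Geo Crest.Agent.R275.Core144
open Crest.Agent.R273.Defs_333 Crest.Agent.R273.HM_333 Crest.Agent.R273.Kah_333
open Crest.Agent.R273.Vm_333 Crest.Agent.R273.HessB_333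
open Crest.Agent.R273.Fock_243 Crest.Agent.R273.DVec_733 Crest.Agent.R273.DMetB_733
open Crest.Agent.R273.NormC_505 (continuous_of_sm)
open Crest.Agent.R273.NV_578 (htriv cur_htriv)
open Crest.Agent.R273.BKNa_37 (IsV delV dbV)
open Crest.Agent.R273.BKNb_37 (inG)
open Crest.Agent.R273.BKNc_37 (inG_isD)
open Crest.Agent.R273.HDN_505 (HB)
open Crest.Agent.T223.Hm (hq ix ix_mem gl gl_sm Cs Cut contOn_smAt)
open Crest.Agent.X261.Top (wdg dW HolV)
open Crest.Agent.X261.Jet.Tb Crest.Agent.X261.Jet.HL Crest.Agent.X261.Hs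
open Crest.Agent.X261.Jet.Fr (rr tV rr_eq norm_rr norm_tV memLp_rr tV_add tV_smul gq_pos gq_nonneg
  contOn_V)
open Crest.Agent.X277.AN (gf gq)

noncomputable section

/-- the cut-off function of one variable -/
def ct (ρ s : ℝ) : ℝ := Real.smoothTransition (2 - s / ρ)

theorem ct_cd (ρ : ℝ) : ContDiff ℝ ∞ (ct ρ) :=
  Real.smoothTransition.contDiff.comp (contDiff_const.sub (contDiff_id.div_const ρ))

theorem ct_one {ρ s : ℝ} (hρ : 0 < ρ) (h : s ≤ ρ) : ct ρ s = 1 :=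
  Real.smoothTransition.one_of_one_le (by linarith [(div_le_one hρ).2 h])

theorem ct_zero {ρ s : ℝ} (hρ : 0 < ρ) (h : 2 * ρ ≤ s) : ct ρ s = 0 :=
  Real.smoothTransition.zero_of_nonpos (by linarith [(le_div_iff₀ hρ).2 h])

theorem ct_der {ρ s : ℝ} (hρ : 0 < ρ) (h : s < ρ) : deriv (ct ρ) s = 0 := by
  have e : ct ρ =ᶠ[𝓝 s] fun _ => 1 := by
    filter_upwards [Iio_mem_nhds h] with u hu using ct_one hρ (le_of_lt hu)
  rw [e.deriv_eq, deriv_const]

variable {n q : ℕ} {M : Type} [TopologicalSpace M] {A : Atl n M} {a : M → Cn q} {i : A.ι}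
  {x : M} {R T : Set M} {t : Cn q} {ρ : ℝ}

open Classical in
/-- the cut-off function -/
def cf (T : Set M) (a : M → Cn q) (t : Cn q) (ρ : ℝ) (x : M) : ℂ :=
  if x ∈ T then (ct ρ (ps a t x) : ℂ) else 0

/-- a proper tube `T` in the regular set `R` -/
structure Dt (A : Atl n M) (a : M → Cn q) (R T : Set M) (t : Cn q) (ρ : ℝ) : Prop where
  hol : HolV A univ a
  sbm : Sbm A R a
  opn : IsOpen T
  sub : T ⊆ R
  pos : 0 < ρ
  cpt : IsCompact {x | x ∈ T ∧ ps a t x ≤ 2 * ρ}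

theorem sm_kps (ha : HolV A univ a) (t : Cn q) (k : ℝ) : A.Sm fun x => k * ps a t x :=
  fun i => contDiffOn_const.mul (sm_ps ha t i)

/-- the metric `e^{-k |a - t|²}` -/
def hk (ha : HolV A univ a) (t : Cn q) (k : ℝ) : HM ((KB A)⁻¹ * KB A) :=
  tw (htriv A) (fun x => k * ps a t x) (sm_kps ha t k)

theorem hk_w (ha : HolV A univ a) (t : Cn q) (k : ℝ) (i : A.ι) (x : M) :
    (hk ha t k).w i x = Real.exp (-(k * ps a t x)) := one_mul _

theorem Th_hk (K : Kah A) (ha : HolV A univ a) (t : Cn q) (k : ℝ) (hx : x ∈ (A.e i).source)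
    (ξ : Fin n → ℂ) :
    Th K (hk ha t k) (fun _ => 0) (0 + 0) i x ξ = k * hq (hsf A (ps a t) i x) ξ := by
  have h1 : hsf A (fun _ => 0) i x = 0 := by
    simpa [hsf] using
      hess_const_mul (u := fun _ : Cn n => (0 : ℝ)) (z := A.e i x) 0 contDiffAt_const
  have h2 : hsf A (fun x => k * ps a t x) i x = (k : ℂ) • hsf A (ps a t) i x :=
    hess_const_mul k (sm_contDiffAt (sm_ps ha t) i ((A.e i).map_source hx))
  rw [Th, hk, cur_tw _ _ i hx, cur_htriv i hx, zero_add, h1, h2, hq_smul]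
  simp [hq]

theorem hq_nonneg (ha : HolV A univ a) (t : Cn q) (hx : x ∈ (A.e i).source) (ξ : Fin n → ℂ) :
    0 ≤ hq (hsf A (ps a t) i x) ξ := by
  rw [hq_ps ha t hx]
  positivity

variable [T2Space M]

theorem Dt.ev_in (H : Dt A a R T t ρ) (hx : x ∈ T) :
    ∀ᶠ y in 𝓝 x, cf T a t ρ y = (ct ρ (ps a t y) : ℂ) := by
  filter_upwards [H.opn.mem_nhds hx] with y hy using if_pos hy

theorem Dt.ev_out (H : Dt A a R T t ρ) (hx : x ∉ {x | x ∈ T ∧ ps a t x ≤ 2 * ρ}) :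
    ∀ᶠ y in 𝓝 x, cf T a t ρ y = 0 := by
  filter_upwards [H.cpt.isClosed.isOpen_compl.mem_nhds hx] with y hy
  unfold cf
  split_ifs with h
  · rw [ct_zero H.pos (not_le.1 fun h' => hy ⟨h, h'⟩).le, Complex.ofReal_zero]
  · rfl

theorem Dt.sm_cf (H : Dt A a R T t ρ) : A.Sm (cf T a t ρ) := by
  intro i z hz
  have hi := (A.e i).map_target hz
  refine ContDiffAt.contDiffWithinAt ?_
  by_cases hx : (A.e i).symm z ∈ T
  · have h1 := ev_read hi (H.ev_in hx)
    rw [(A.e i).right_inv hz] at h1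
    exact ((sm_compC (ct_cd ρ) (sm_ps H.hol t) i).contDiffAt
      ((A.e i).open_target.mem_nhds hz)).congr_of_eventuallyEq h1
  · have h1 := ev_read hi (H.ev_out fun h => hx h.1)
    rw [(A.e i).right_inv hz] at h1
    exact contDiffAt_const.congr_of_eventuallyEq h1

variable [Countable A.ι] [MeasurableSpace M] [BorelSpace M]

/-- the data -/
def Dt.v0 (H : Dt A a R T t ρ) : MV (KB A) := mulV H.sm_cf (toMV (isV_ep0 H.hol))

theorem Dt.v0_apply (H : Dt A a R T t ρ) (hx : x ∈ (A.e i).source) :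
    H.v0.1 i x = cf T a t ρ x • ep0 A a i x := by
  rw [Dt.v0, mulV_apply, toMV_apply _ hx]

theorem Dt.v0_out (H : Dt A a R T t ρ) (hx : x ∉ {x | x ∈ T ∧ ps a t x ≤ 2 * ρ}) (i : A.ι) :
    ∀ᶠ y in 𝓝 x, H.v0.1 i y = 0 :=
  (H.ev_out hx).mono fun y hy => by rw [Dt.v0, mulV_apply, hy, zero_smul]

theorem Dt.v0_cs (H : Dt A a R T t ρ) : Cs H.v0.1 :=
  ⟨_, H.cpt, fun i _ hx => (H.v0_out hx i).self_of_nhds⟩

theorem Dt.dlt_v0 (H : Dt A a R T t ρ) (h : HM ((KB A)⁻¹ * KB A)) {k : ℝ}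
    (hw : ∀ i y, h.w i y = Real.exp (-(k * ps a t y))) : dlt h H.v0 = 0 := by
  refine Subtype.ext (funext fun i => funext fun x => ?_)
  by_cases hi : x ∈ (A.e i).source
  swap
  · exact (dlt h H.v0).2.2.1 i x hi
  rw [dlt_eq_delV h _ hi]
  by_cases hx : x ∈ T
  · refine delV_zero h H.sbm (H.sub hx) hi
      (Φ := fun s => ((Real.exp (-(k * ‖s - t‖ ^ 2)) * ct ρ (‖s - t‖ ^ 2) : ℝ) : ℂ)) ?_ ?_
    · have h1 : ContDiff ℝ ∞ fun s : Cn q => ‖s - t‖ ^ 2 := (contDiff_id.sub contDiff_const).norm_sq ℝ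
      exact (Complex.ofRealCLM.contDiff.comp (((contDiff_const.mul h1).neg.exp).mul
        ((ct_cd ρ).comp h1))).differentiable (by simp) _
    · filter_upwards [H.ev_in hx, (A.e i).open_source.mem_nhds hi] with y h1 h2
      rw [H.v0_apply h2, h1, hw, smul_smul, ps_eq, Complex.ofReal_mul]
  · exact delV_zero' h hi (H.v0_out (fun h => hx h.1) i)

theorem Dt.dbV_v0 (H : Dt A a R T t ρ) (hx : x ∈ T) (hi : x ∈ (A.e i).source) (k : Fin n) :
    dbV H.v0.1 i k x =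
      ((deriv (ct ρ) (ps a t x) : ℝ) * conj (gf A (ps a t) i x k) : ℂ) • ep0 A a i x := by
  have h1 : dbV (toMV (isV_ep0 H.hol)).1 i k x = 0 := by
    rw [dbV_congr (w := ep0 A a) hi (mem_of_superset ((A.e i).open_source.mem_nhds hi)
      fun y hy => toMV_apply _ hy)]
    exact funext fun S => (ep0_hol H.hol i S).db_zero isOpen_univ hi (mem_univ _) k
  rw [dbV_congr (w := (mulV (sm_compC (ct_cd ρ) (sm_ps H.hol t)) (toMV (isV_ep0 H.hol))).1) hi
    ((H.ev_in hx).mono fun y hy => by rw [Dt.v0, mulV_apply, mulV_apply, hy]),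
    dbV_mulV (ct_cd ρ) (sm_ps H.hol t) _ hi, h1, smul_zero, add_zero, toMV_apply _ hi]

variable (K : Kah A) (vol : HM (KB A)⁻¹)

/-- the squared length of `ep0` -/
def en (a : M → Cn q) (x : M) : ℝ := ‖rr (htriv A) vol K (ep0 A a) x‖ ^ 2

theorem en_cont (ha : HolV A univ a) : Continuous (en K vol a) := by
  have h := Complex.continuous_re.comp (continuous_of_sm (gl_sm (vol := vol)
    (inG_isD (K := K) (htriv A) (isV_ep0 ha) (isV_ep0 ha))))
  exact h.congr fun x => (norm_rr _ _ _ _ x).symm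

theorem en_eq (ha : HolV A univ a) (hx : x ∈ (A.e i).source) :
    en K vol a x = (vol.w i x)⁻¹ * (Jet.Fr.gq K i x (ep0 A a i x) (ep0 A a i x)).re := by
  rw [en, rr_eq _ _ _ (isV_ep0 ha) hx, norm_tV _ _ _ hx]
  exact congrArg _ (one_mul _)

theorem ws_hk (ha : HolV A univ a) (t : Cn q) {k : ℝ} (h0 : 0 ≤ k) :
    WS K (hk ha t k) vol (fun _ _ _ => 0) (fun _ _ _ => 0) (fun _ => 0) 0 where
  sm _ _ _ := contDiffOn_const
  anti _ _ := antitone_const
  le _ _ := le_rfl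
  lm _ _ := measurable_const
  l0 _ _ _ := le_rfl
  lb _ := ⟨0, fun _ _ => le_rfl⟩
  lim _ := Eventually.of_forall fun _ => tendsto_const_nhds
  e0 _ := le_rfl
  elim := tendsto_const_nhds
  pos _ _ _ _ hx ξ := by
    rw [Th_hk K ha t k hx]
    exact mul_nonneg h0 (hq_nonneg ha t hx ξ)

/-- the majorant of `|∂̄ v₀|²` -/
def k0 (T : Set M) (a : M → Cn q) (t : Cn q) (ρ : ℝ) : M → ℝ :=
  {x | x ∈ T ∧ ps a t x ≤ 2 * ρ}.indicator fun x =>
    deriv (ct ρ) (ps a t x) ^ 2 * ps a t x * en K vol a x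

theorem k0_nonneg (x : M) : 0 ≤ k0 K vol T a t ρ x :=
  indicator_nonneg (fun y _ => mul_nonneg (mul_nonneg (sq_nonneg _) (ps_nonneg t y))
    (sq_nonneg _)) x

theorem Dt.int_k0 (H : Dt A a R T t ρ) : Integrable (k0 K vol T a t ρ) (vm vol) := by
  have := isLocallyFinite_vm vol
  have h1 := continuous_of_sm (sm_ps H.hol t)
  refine (integrable_indicator_iff H.cpt.measurableSet).2
    (Continuous.continuousOn ?_ |>.integrableOn_compact H.cpt)
  exact (((((ct_cd ρ).continuous_deriv (by simp)).comp h1).pow 2).mul h1).mul (en_cont K vol H.hol)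

theorem Dt.ds (H : Dt A a R T t ρ) {k : ℝ} (h0 : 0 < k) :
    DS K (hk H.hol t k) vol (fun _ _ _ => 0) (fun _ _ _ => 0) (fun _ => 0)
      (Real.exp (-(k * ρ)) / k * ∫ x, k0 K vol T a t ρ x ∂(vm vol))
      (fun _ _ x => Real.exp (-(k * ρ)) / k * k0 K vol T a t ρ x) fun _ _ => H.v0 := by
  have hc : 0 ≤ Real.exp (-(k * ρ)) / k := by positivity
  refine ⟨fun _ _ => H.v0_cs, fun _ _ => ((H.int_k0 K vol).const_mul _).1.aemeasurable,
    fun _ _ x => mul_nonneg hc (k0_nonneg K vol x), fun _ _ => ?_,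
    fun _ _ => Eventually.of_forall fun x => ?_⟩
  · rw [← integral_const_mul]
    exact (ofReal_integral_eq_lintegral_ofReal ((H.int_k0 K vol).const_mul _)
      (Eventually.of_forall fun x => mul_nonneg hc (k0_nonneg K vol x))).ge
  have hi := ix_mem (A := A) x
  set i := ix A x
  have hv := vol.pos i x hi
  refine ⟨i, hi, ?_⟩
  simp only [Th_hk K H.hol t k hi]
  by_cases hx : x ∈ {x | x ∈ T ∧ ps a t x ≤ 2 * ρ}
  swap
  · refine ⟨0, 0, fun l => by rw [dbV_zero hi (H.v0_out hx i), smul_zero], fun ξ => ?_⟩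
    rw [dotProduct_zero (v := star ξ), norm_zero, zero_pow two_ne_zero, mul_zero]
    exact mul_nonneg (mul_nonneg (mul_nonneg hc (k0_nonneg K vol x)) hv.le)
      (mul_nonneg h0.le (hq_nonneg H.hol t hi ξ))
  refine ⟨_, _, H.dbV_v0 hx.1 hi, fun ξ => ?_⟩
  have h1 : ‖star ξ ⬝ᵥ fun l => ((deriv (ct ρ) (ps a t x) : ℝ) * conj (gf A (ps a t) i x l) : ℂ)‖ ^ 2
      = deriv (ct ρ) (ps a t x) ^ 2 * gq A (ps a t) i x ξ := by
    have h2 : (star ξ ⬝ᵥ fun l => ((deriv (ct ρ) (ps a t x) : ℝ) * conj (gf A (ps a t) i x l) : ℂ))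
        = (deriv (ct ρ) (ps a t x) : ℝ) * conj (∑ l, gf A (ps a t) i x l * ξ l) := by
      simp only [dotProduct, map_sum, map_mul, Finset.mul_sum, Pi.star_apply, Complex.star_def]
      exact Finset.sum_congr rfl fun _ _ => by ring
    rw [h2, norm_mul, mul_pow, Complex.norm_real, Real.norm_eq_abs, sq_abs, Complex.norm_conj, gq]
  have h2 : (star (ep0 A a i x) ⬝ᵥ (GK K i x *ᵥ ep0 A a i x)).re = vol.w i x * en K vol a x := by
    rw [en_eq K vol H.hol hi, ← mul_assoc, mul_inv_cancel₀ hv.ne', one_mul]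
    rfl
  rw [h1, h2, hk_w, k0, indicator_of_mem hx, neg_zero, Real.exp_zero, mul_one]
  rcases lt_or_ge (ps a t x) ρ with h3 | h3
  · simp [ct_der H.pos h3]
  have h4 : Real.exp (-(k * ps a t x)) ≤ Real.exp (-(k * ρ)) :=
    Real.exp_le_exp.2 (neg_le_neg (mul_le_mul_of_nonneg_left h3 h0.le))
  have h5 : 0 ≤ en K vol a x := sq_nonneg _
  calc _ ≤ Real.exp (-(k * ρ)) * (vol.w i x * en K vol a x) *
        (deriv (ct ρ) (ps a t x) ^ 2 * (ps a t x * hq (hsf A (ps a t) i x) ξ)) :=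
      mul_le_mul (mul_le_mul_of_nonneg_right h4 (by positivity))
        (mul_le_mul_of_nonneg_left (gq_le H.hol t hi ξ) (sq_nonneg _))
        (mul_nonneg (sq_nonneg _) (sq_nonneg _)) (by positivity)
    _ = _ := by field_simp

theorem exists_cpt (hi : x ∈ (A.e i).source) :
    ∃ C : Set M, IsCompact C ∧ C ⊆ (A.e i).source ∧ C ∈ 𝓝 x := by
  obtain ⟨C, h1, h2, h3⟩ := exists_compact_subset (A.e i).open_target ((A.e i).map_source hi)
  refine ⟨(A.e i).symm '' C, h1.image_of_continuousOn ((A.e i).continuousOn_symm.mono h3), ?_, ?_⟩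
  · rintro _ ⟨z, hz, rfl⟩
    exact (A.e i).map_target (h3 hz)
  · filter_upwards [(A.e i).open_source.mem_nhds hi, ((A.e i).continuousAt hi).preimage_mem_nhds
      (mem_interior_iff_mem_nhds.1 h2)] with y hy hy' using ⟨_, hy', (A.e i).left_inv hy⟩

/-- the holomorphic polyvector -/
theorem Dt.exists_V (H : Dt A a R T t ρ) (P : Part A) (hcut : Cut K) {k : ℝ} (h1 : 1 ≤ k) :
    ∃ V : A.ι → M → FI n → ℂ, IsV (KB A) V ∧ (∀ i S, HolAt A i univ fun y => V i y S) ∧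
      (∀ i, ∀ x ∈ (A.e i).source, ∀ l, iW (dp A i a x l) *ᵥ V i x = 0) ∧
      MemLp (rr (hk H.hol t k) vol K V) 2 (vm vol) ∧
      ∫ x, ‖rr (hk H.hol t k) vol K V x - rr (hk H.hol t k) vol K H.v0.1 x‖ ^ 2 ∂(vm vol) ≤
        Real.exp (-(k * ρ)) / k * ∫ x, k0 K vol T a t ρ x ∂(vm vol) := by
  have h0 : 0 < k := one_pos.trans_le h1
  set D := Real.exp (-(k * ρ)) / k * ∫ x, k0 K vol T a t ρ x ∂(vm vol) with hD
  have hD0 : 0 ≤ D := mul_nonneg (by positivity) (integral_nonneg (k0_nonneg K vol))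
  have W := ws_hk K vol H.hol t h0.le
  set h := hk H.hol t k with hh
  obtain ⟨Λ, Y, l0, l1, l2⟩ := hs_hahn W (H.ds K vol h0) P hcut hD0 (ρ := fun _ => 1)
    measurable_const (fun _ => zero_le_one) (fun _ _ => ⟨1, fun _ _ => le_rfl⟩)
    (Eventually.of_forall fun x δ hδ => Eventually.of_forall fun _ => ⟨0, by simp [hδ.le]⟩)
    H.v0_cs (c := fun _ _ _ => 1) (c0 := fun _ => 1) (fun _ _ _ _ _ => (one_smul _ _).symm)
    (fun _ _ => aestronglyMeasurable_const) (fun _ _ _ => norm_one.le) aestronglyMeasurable_const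
    (fun _ => norm_one.le) fun _ => Eventually.of_forall fun _ => tendsto_const_nhds
  have e1 : ∀ w : MV (KB A), nW K h vol (fun _ => 0) w.1 =
      ∫ x, 1 * (gl vol (inG K h w.1 w.1) x).re ∂(vm vol) := fun w => by
    simp only [nW, Real.exp_zero]
  set J := ∫ x, 1 * pq vol (HB K h) (lowC K H.v0 H.v0_cs).1 x ∂(vm vol) with hJ
  have hJ0 : 0 ≤ J := integral_nonneg fun x => mul_nonneg zero_le_one (pq_nonneg vol _ _ x)
  have hB : 0 ≤ 2 * J + 2 * D := by positivity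
  obtain ⟨V, O⟩ := hl n M A P K hcut (KB A) h vol _ _ _ _ W Λ l0 (Real.sqrt (2 * J + 2 * D))
    (Real.sqrt_nonneg _) (fun _ _ w hw => by
      have h2 := lamC_le vol (HB K h) (c := fun _ => 1) aestronglyMeasurable_const
        (fun _ => norm_one.le) (lowC K H.v0 H.v0_cs) (lowC K w hw) (a := fun _ => 1)
        (ρ := fun _ => 1) (fun _ => zero_le_one) ((integrable_pq1 vol _ _).const_mul 1)
        (fun _ => zero_le_one) ((integrable_pq1 vol _ _).const_mul 1)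
        (Eventually.of_forall fun _ => by simp)
      rw [lamC_low] at h2
      simp only [pq_low K h w hw] at h2
      rw [l1, Real.sq_sqrt hB, e1, sub_eq_add_neg]
      refine (sq_add_le h2 ((congrArg (· ^ 2) (norm_neg _)).trans_le (l2 w hw))).trans
        (le_of_eq ?_)
      rw [← hJ, ← hD]
      ring) univ (fun _ _ => univ) MeasurableSet.univ (fun _ _ => MeasurableSet.univ)
    fun _ => by simp
  refine ⟨V, O.isV, O.hol, fun i x hi l => ?_, O.mem, ?_⟩
  · obtain ⟨C, c1, c2, c3⟩ := exists_cpt hi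
    have hb : ContinuousOn (fun y => dp A i a y l) (A.e i).source :=
      continuousOn_pi.2 fun c => contOn_smAt (smAt_of_hol (dp_hol H.hol i l c))
    have h2 := O.null i C c1 c2 (fun y => dp A i a y l) (hb.mono c2) fun _ _ y hy ξ => by
      rw [hh, Th_hk K H.hol t k (c2 hy.2), hq_ps H.hol t (c2 hy.2)]
      refine le_trans (Finset.single_le_sum (f := fun l => ‖∑ c, dp A i a y l c * ξ c‖ ^ 2)
        (fun _ _ => sq_nonneg _) (Finset.mem_univ l)) (le_mul_of_one_le_left (by positivity) h1)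
    have := isOpenPos_vm vol
    have h3 : ContinuousOn (fun y => iW (dp A i a y l) *ᵥ V i y) (A.e i).source := by
      simp only [iW_eq_sum (dp A i a _ l), Matrix.sum_mulVec, Matrix.smul_mulVec]
      exact continuousOn_finsetSum _ fun c _ => (continuousOn_pi.1 hb c).smul
        ((continuous_const.matrix_mulVec continuous_id).comp_continuousOn (contOn_V O.isV i))
    refine Measure.eqOn_open_of_ae_eq (μ := vm vol) (g := fun _ => 0) (U := interior C) ?_
      isOpen_interior (h3.mono (interior_subset.trans c2)) continuousOn_const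
      (mem_interior_iff_mem_nhds.2 c3)
    filter_upwards [ae_restrict_of_ae h2, ae_restrict_mem isOpen_interior.measurableSet]
      with y h4 h5 using h4 ⟨mem_univ _, interior_subset h5⟩
  · have h2 := O.dist H.v0 H.v0_cs (fun _ _ => H.dlt_v0 _ (k := k) fun i y => by
      change h.w i y * Real.exp (-0) = _
      rw [neg_zero, Real.exp_zero, mul_one, hh, hk_w]) (Real.sqrt D) (Real.sqrt_nonneg _)
      fun _ _ w hw => by
        rw [l1, Real.sq_sqrt hD0, e1, pr]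
        simp only [map_one, one_mul, sub_sub_cancel_left, norm_neg]
        simpa only [one_mul] using l2 w hw
    rwa [Real.sq_sqrt hD0, Real.exp_zero, mul_one] at h2

/-- the holomorphic function -/
theorem Dt.exists_h (H : Dt A a R T t ρ) (P : Part A) (hcut : Cut K) {r : ℕ} (hr : q + r = n)
    {k : ℝ} (h1 : 1 ≤ k) : ∃ h : M → ℂ, (∀ i, HolAt A i R h) ∧
      ∫⁻ x in R ∩ {x | ps a t x < ρ}, ENNReal.ofReal (‖h x - cf T a t ρ x‖ ^ 2 * en K vol a x)
        ∂(vm vol) ≤ ENNReal.ofReal ((∫ x, k0 K vol T a t ρ x ∂(vm vol)) / k) := by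
  have h0 : 0 < k := one_pos.trans_le h1
  obtain ⟨V, v1, v2, v3, v4, v5⟩ := H.exists_V K vol P hcut h1
  obtain ⟨h, h2, h3⟩ := exists_ratio H.hol H.sbm v1 v2 hr fun i x _ hi => v3 i x hi
  refine ⟨h, h2, ?_⟩
  have hI : Integrable (fun x => ‖rr (hk H.hol t k) vol K V x -
      rr (hk H.hol t k) vol K H.v0.1 x‖ ^ 2) (vm vol) :=
    (v4.sub (memLp_rr _ vol K (isV H.v0) H.v0_cs)).integrable_norm_pow two_ne_zero
  have h4 := mul_le_mul_of_nonneg_left v5 (Real.exp_pos (k * ρ)).le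
  rw [← integral_const_mul, ← mul_assoc, ← mul_div_assoc, ← Real.exp_add, add_neg_cancel,
    Real.exp_zero, one_div, inv_mul_eq_div] at h4
  refine le_trans ?_ (ENNReal.ofReal_le_ofReal h4)
  rw [ofReal_integral_eq_lintegral_ofReal (hI.const_mul _)
    (Eventually.of_forall fun x => by positivity)]
  refine le_trans (lint_mono_on (H.sbm.opn.inter (isOpen_lt (continuous_of_sm (sm_ps H.hol t))
    continuous_const)).measurableSet subset_rfl fun x hx => ENNReal.ofReal_le_ofReal ?_)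
    (setLIntegral_le_lintegral _ _)
  obtain ⟨i, hi⟩ := A.cover x
  have e1 : rr (hk H.hol t k) vol K V x - rr (hk H.hol t k) vol K H.v0.1 x =
      tV (hk H.hol t k) vol K i x (V i x - H.v0.1 i x) := by
    rw [rr_eq _ _ _ v1 hi, rr_eq _ _ _ (isV H.v0) hi, sub_eq_iff_eq_add, ← tV_add, sub_add_cancel]
  have e2 : prj r (V i x - H.v0.1 i x) = (h x - cf T a t ρ x) • ep0 A a i x := by
    rw [prj_sub, h3 i x hx.1 hi, H.v0_apply hi, prj_smul,
      Dg.prj_eq (τ := ep0 A a i x) (dg_dW.Sbi hr), sub_smul]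
  have e3 : ‖h x - cf T a t ρ x‖ ^ 2 * (Jet.Fr.gq K i x (ep0 A a i x) (ep0 A a i x)).re ≤
      (Jet.Fr.gq K i x (V i x - H.v0.1 i x) (V i x - H.v0.1 i x)).re := by
    have h5 := gq_nonneg K hi ((V i x - H.v0.1 i x) - prj r (V i x - H.v0.1 i x))
    unfold Jet.Fr.gq at h5 ⊢
    rw [pair_split (p := r) _ (V i x - H.v0.1 i x), Complex.add_re]
    refine le_add_of_le_of_nonneg (le_of_eq ?_) h5
    rw [e2, star_smul, Matrix.mulVec_smul, smul_dotProduct, dotProduct_smul, smul_smul,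
      Complex.star_def, Complex.conj_mul', smul_eq_mul, ← Complex.ofReal_pow,
      Complex.re_ofReal_mul]
  have e4 : 1 ≤ Real.exp (k * ρ) * Real.exp (-(k * ps a t x)) := by
    rw [← Real.exp_add]
    exact Real.one_le_exp (by nlinarith [show ps a t x < ρ from hx.2])
  have hv := (inv_pos.2 (vol.pos i x hi)).le
  rw [e1, norm_tV _ _ _ hi, hk_w, en_eq K vol H.hol hi, mul_left_comm,
    mul_left_comm (Real.exp _), ← mul_assoc (Real.exp _)]
  exact mul_le_mul_of_nonneg_left (e3.trans (le_mul_of_one_le_left (gq_nonneg K hi _) e4)) hv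

omit [MeasurableSpace M] [BorelSpace M] in
/-- **separation** -/
theorem Dt.exists_sep (H : Dt A a R T t ρ) (P : Part A) (hcut : Cut K) {x₁ x₂ : M} (h1 : x₁ ∈ T)
    (h2 : x₂ ∈ R) (h2' : x₂ ∉ T) (e1 : a x₁ = t) (e2 : a x₂ = t) :
    ∃ h : M → ℂ, (∀ i, HolAt A i R h) ∧ h x₁ ≠ h x₂ := by
  borelize M
  let vol := Crest.Agent.R273.Vol_333.volK K
  have hc := continuous_of_sm (sm_ps H.hol t)
  set I := ∫ x, k0 K vol T a t ρ x ∂(vm vol) with hI
  have hI0 : 0 ≤ I := integral_nonneg (k0_nonneg K vol)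
  have key : ∀ x ∈ R, a x = t → ∀ c : ℂ, (∀ᶠ y in 𝓝 x, ps a t y < ρ → cf T a t ρ y = c) →
      ∃ C : ℝ, 0 ≤ C ∧ ∀ h : M → ℂ, (∀ i, HolAt A i R h) → ∀ η : ℝ, 0 ≤ η →
        ∫⁻ x in R ∩ {x | ps a t x < ρ}, ENNReal.ofReal (‖h x - cf T a t ρ x‖ ^ 2 * en K vol a x)
          ∂(vm vol) ≤ ENNReal.ofReal η → ‖h x - c‖ ^ 2 ≤ C * η := by
    intro x hx e c hc'
    obtain ⟨i, hi⟩ := A.cover x
    have h3 : ∀ᶠ y in 𝓝 x, ps a t y < ρ := hc.continuousAt.eventually (gt_mem_nhds (by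
      rw [ps_eq, e, sub_self, norm_zero, zero_pow two_ne_zero]; exact H.pos))
    obtain ⟨O, h4, hO, hxO⟩ := eventually_nhds_iff.1 ((hc'.and h3).and (H.sbm.opn.mem_nhds hx))
    obtain ⟨C, hC, h5⟩ := eval_le vol H.sbm.opn hx hi (hO.mem_nhds hxO)
      (en_cont K vol H.hol).continuousAt (by
        rw [en_eq K vol H.hol hi]
        exact mul_pos (inv_pos.2 (vol.pos i x hi)) (gq_pos K hi (ep0_ne H.sbm hx hi)))
    refine ⟨C, hC, fun h hh η hη h6 => h5 (fun y => h y - c) ((hh i).sub_const c) η hη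
      (le_trans ?_ h6)⟩
    refine le_trans (lint_mono_on hO.measurableSet subset_rfl fun y hy => le_of_eq ?_)
      (lintegral_mono_set fun y hy => ⟨(h4 y hy).2, (h4 y hy).1.2⟩)
    rw [(h4 y hy).1.1 (h4 y hy).1.2]
  obtain ⟨C₁, c1, k1⟩ := key x₁ (H.sub h1) e1 1 ((H.ev_in h1).mono fun y hy h => by
    rw [hy, ct_one H.pos h.le, Complex.ofReal_one])
  obtain ⟨C₂, c2, k2⟩ := key x₂ h2 e2 0 ((H.ev_out fun h => h2' h.1).mono fun y hy _ => hy)
  set k := 4 * (C₁ + C₂) * I + 1 with hk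
  have hk1 : 1 ≤ k := le_add_of_nonneg_left (by positivity)
  have hk0 : 0 < k := one_pos.trans_le hk1
  obtain ⟨h, h3, h4⟩ := H.exists_h K vol P hcut
    (Nat.add_sub_cancel' (H.sbm.le_dim h2)) hk1
  refine ⟨h, h3, fun e => ?_⟩
  have h5 := k1 h h3 _ (div_nonneg hI0 hk0.le) h4
  have h6 := k2 h h3 _ (div_nonneg hI0 hk0.le) h4
  rw [e] at h5
  rw [sub_zero] at h6
  have h7 : (C₁ + C₂) * (I / k) < 1 / 4 := by
    rw [← mul_div_assoc, div_lt_iff₀ hk0]
    linarith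
  have h8 := norm_sub_le (h x₂) (h x₂ - 1)
  rw [sub_sub_cancel, norm_one] at h8
  nlinarith [sq_nonneg (‖h x₂‖ - ‖h x₂ - 1‖), norm_nonneg (h x₂), norm_nonneg (h x₂ - 1)]

end

end Crest.Agent.X261.Sep93
end

-- ▼ part X261/Sep93/Main
section

/-!
# Row 261, FIB/Sep (helper93), file `Main`: separation of the components of a general fibre

`sepH : Fib.Mn.SepH D H`.
-/

set_option autoImplicit false
set_option linter.unusedSectionVars false

open Set Filter Topology Metric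

namespace Crest.Agent.X261.Sep93

open Crest.Agent.R275.Geo Crest.Agent.R275.Core144 Crest.Agent.R273.UCov_914
open Crest.Agent.R273.Kah_333 (Kah)
open Crest.Agent.R273.RMan4_798 (pullKah)
open Crest.Agent.R273.NormC_505 (continuous_of_sm)
open Crest.Agent.R281.ThnM_280 (Crit surj_of_not_crit)
open Crest.Agent.X261.Top (HolV)
open Crest.Agent.X261.Jet.Tb Crest.Agent.X261.Cov.A Crest.Agent.X261.Fib

noncomputable section

/-! ### topology -/

section top

variable {G M Y : Type*} [Group G] [TopologicalSpace M] [MulAction G M] [ContinuousConstSMul G M]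
  {a : M → Y} {t : Y}

theorem smul_cc {g : G} (hg : ∀ y, a (g • y) = a y) {x y : M}
    (h : y ∈ connectedComponentIn (a ⁻¹' {t}) x) :
    g • y ∈ connectedComponentIn (a ⁻¹' {t}) (g • x) := by
  refine (isPreconnected_connectedComponentIn.image (g • ·)
    (continuous_const_smul g).continuousOn).subset_connectedComponentIn
    ⟨x, mem_connectedComponentIn (connectedComponentIn_nonempty_iff.1 ⟨y, h⟩), rfl⟩ ?_ ⟨y, h, rfl⟩
  rintro _ ⟨z, hz, rfl⟩
  rw [mem_preimage, hg]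
  exact connectedComponentIn_subset (a ⁻¹' {t}) _ hz

theorem inv_inv' {g : G} (hg : ∀ y, a (g • y) = a y) (y : M) : a (g⁻¹ • y) = a y := by
  rw [← hg, smul_inv_smul]

variable (G) in
/-- the stabiliser of the component of `x` in the fibre -/
def stab (a : M → Y) (x : M) : Subgroup G where
  carrier := {g | (∀ y, a (g • y) = a y) ∧ g • x ∈ connectedComponentIn (a ⁻¹' {a x}) x}
  one_mem' := ⟨fun y => by rw [one_smul], by rw [one_smul]; exact mem_connectedComponentIn rfl⟩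
  mul_mem' ha hb := ⟨fun y => by rw [mul_smul, ha.1, hb.1], by
    rw [mul_smul, connectedComponentIn_eq ha.2]
    exact smul_cc ha.1 hb.2⟩
  inv_mem' {g} ha := ⟨inv_inv' ha.1, by
    have h := smul_cc (inv_inv' ha.1) ha.2
    rw [inv_smul_smul] at h
    rw [← connectedComponentIn_eq h]
    exact mem_connectedComponentIn (inv_inv' ha.1 x)⟩

theorem stab_smul {x y : M} {g : G} (hg : g ∈ stab G a x)
    (hy : y ∈ connectedComponentIn (a ⁻¹' {a x}) x) :
    g • y ∈ connectedComponentIn (a ⁻¹' {a x}) x := by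
  rw [connectedComponentIn_eq hg.2]
  exact smul_cc hg.1 hy

/-- the stabiliser acts cocompactly on the component -/
theorem stab_cocpt {x : M} (hF : IsClosed (a ⁻¹' {a x}))
    (lc : ∀ y ∈ a ⁻¹' {a x}, connectedComponentIn (a ⁻¹' {a x}) y ∈ 𝓝[a ⁻¹' {a x}] y)
    {C : Set M} (hC : IsCompact C)
    (h : ∀ y ∈ a ⁻¹' {a x}, ∃ g : G, (∀ z, a (g • z) = a z) ∧ g • y ∈ C) :
    ∃ K : Set M, IsCompact K ∧ ∀ y ∈ connectedComponentIn (a ⁻¹' {a x}) x,
      ∃ g ∈ stab G a x, g • y ∈ K := by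
  classical
  obtain ⟨s, -, hs⟩ := (hC.inter_right hF).elim_nhdsWithin_subcover
    (fun y => connectedComponentIn (a ⁻¹' {a x}) y)
    fun y hy => nhdsWithin_mono _ inter_subset_right (lc y hy.2)
  have h1 : ∀ y : M, ∃ k : G, (∃ g : G, (∀ z, a (g • z) = a z) ∧
      g • x ∈ connectedComponentIn (a ⁻¹' {a x}) y) → (∀ z, a (k • z) = a z) ∧
      k • x ∈ connectedComponentIn (a ⁻¹' {a x}) y := fun y => by
    by_cases h2 : ∃ g : G, (∀ z, a (g • z) = a z) ∧ g • x ∈ connectedComponentIn (a ⁻¹' {a x}) y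
    · exact ⟨h2.choose, fun _ => h2.choose_spec⟩
    · exact ⟨1, fun h3 => absurd h3 h2⟩
  choose k hk using h1
  refine ⟨⋃ y ∈ s, (fun z => (k y)⁻¹ • z) '' C,
    s.isCompact_biUnion fun y _ => hC.image (continuous_const_smul _), fun y hy => ?_⟩
  obtain ⟨g, hg, hgC⟩ := h y (connectedComponentIn_subset _ _ hy)
  obtain ⟨u, hu, h2⟩ := mem_iUnion₂.1 (hs ⟨hgC, by
    rw [mem_preimage, hg]; exact connectedComponentIn_subset (a ⁻¹' {a x}) _ hy⟩)
  have h3 : g • x ∈ connectedComponentIn (a ⁻¹' {a x}) u := by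
    rw [connectedComponentIn_eq h2, ← connectedComponentIn_eq (smul_cc hg hy)]
    exact mem_connectedComponentIn (hg x)
  obtain ⟨h4, h5⟩ := hk u ⟨g, hg, h3⟩
  refine ⟨(k u)⁻¹ * g, ⟨fun z => by rw [mul_smul, inv_inv' h4, hg], ?_⟩,
    mem_iUnion₂.2 ⟨u, hu, _, hgC, (mul_smul _ _ _).symm⟩⟩
  rw [connectedComponentIn_eq h5] at h3
  have h6 := smul_cc (inv_inv' h4) h3
  rwa [inv_smul_smul, ← mul_smul] at h6

theorem closed_cc {F : Set M} (hF : IsClosed F) {x : M} (hx : x ∈ F) :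
    IsClosed (connectedComponentIn F x) :=
  isClosed_of_closure_subset (isPreconnected_connectedComponentIn.closure.subset_connectedComponentIn
    (subset_closure (mem_connectedComponentIn hx))
    (closure_minimal (connectedComponentIn_subset _ _) hF))

theorem closed_diff {F : Set M} (hF : IsClosed F)
    (lc : ∀ y ∈ F, connectedComponentIn F y ∈ 𝓝[F] y) (x : M) :
    IsClosed (F \ connectedComponentIn F x) := by
  refine isClosed_of_closure_subset fun y hy => ?_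
  have h1 : y ∈ F := closure_minimal sdiff_subset hF hy
  refine ⟨h1, fun h2 => ?_⟩
  obtain ⟨z, h3, h4⟩ := ((mem_closure_iff_frequently.1 hy).and_eventually
    (eventually_nhdsWithin_iff.1 (lc y h1))).exists
  exact h3.2 (connectedComponentIn_eq h2 ▸ h4 h3.1)

theorem closed_image {N : Type*} [TopologicalSpace N] {p : M → N} (ho : IsOpenMap p)
    (hs : Function.Surjective p) {Z : Set M} (hZ : IsClosed Z)
    (h : ∀ x y, p x = p y → x ∈ Z → y ∈ Z) : IsClosed (p '' Z) := by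
  have : (p '' Z)ᶜ = p '' Zᶜ := by
    ext y
    obtain ⟨x, rfl⟩ := hs y
    exact ⟨fun h1 => ⟨x, fun h2 => h1 ⟨x, h2, rfl⟩, rfl⟩,
      fun ⟨z, h1, h2⟩ ⟨w, h3, h4⟩ => h1 (h w z (h4.trans h2.symm) h3)⟩
  rw [← isOpen_compl_iff, this]
  exact ho _ hZ.isOpen_compl

/-- a compact open part of the zero set has a proper tube -/
theorem exists_tube {N : Type*} [TopologicalSpace N] [T2Space N] [LocallyCompactSpace N]
    {ψ : N → ℝ} (hψ : Continuous ψ) {Z Z' R : Set N} (hZ : IsCompact Z) (hZ' : IsClosed Z')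
    (hd : Z ⊆ Z'ᶜ) (hR : IsOpen R) (hZR : Z ⊆ R) (h0 : ∀ y, ψ y ≤ 0 → y ∈ Z ∪ Z') :
    ∃ (T : Set N) (ρ : ℝ), IsOpen T ∧ T ⊆ R ∧ Z ⊆ T ∧ T ⊆ Z'ᶜ ∧ 0 < ρ ∧
      IsCompact {y | y ∈ T ∧ ψ y ≤ 2 * ρ} := by
  obtain ⟨W, h1, h2, h3⟩ := exists_compact_between hZ (hR.inter hZ'.isOpen_compl)
    (subset_inter hZR hd)
  obtain ⟨m, hm, h4⟩ := (h1.diff isOpen_interior (t := interior W)).exists_forall_le'
    hψ.continuousOn (a := 0) fun y hy => lt_of_not_ge fun h5 =>
      (h0 y h5).elim (fun h6 => hy.2 (h2 h6)) fun h6 => (h3 hy.1).2 h6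
  refine ⟨interior W, m / 4, isOpen_interior, fun y hy => (h3 (interior_subset hy)).1, h2,
    fun y hy => (h3 (interior_subset hy)).2, by positivity, ?_⟩
  convert h1.inter_right (isClosed_le hψ (continuous_const (y := 2 * (m / 4)))) using 1
  refine subset_antisymm (fun y hy => ⟨interior_subset hy.1, hy.2⟩) fun y hy => ⟨?_, hy.2⟩
  by_contra h5
  have h6 : ψ y ≤ 2 * (m / 4) := hy.2
  linarith [h4 y ⟨hy.1, h5⟩]

end top

/-! ### propagation of the factorisation -/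

section fac

variable {n q : ℕ} {M : Type} [TopologicalSpace M] {A : Atl n M} {a : M → Cn q} {U : Set M}
  {f : M → ℂ}

/-- `f` is a holomorphic function of `a` near `x` -/
def Fc (a : M → Cn q) (f : M → ℂ) (x : M) : Prop :=
  ∃ Φ : Cn q → ℂ, AnalyticAt ℂ Φ (a x) ∧ ∀ᶠ z in 𝓝 x, f z = Φ (a z)

theorem fc_loc (H : Sbm A U a) (hf : ∀ i, HolAt A i U f) {x : M} (hx : x ∈ U) :
    ∀ᶠ y in 𝓝 x, (Fc a f x ↔ Fc a f y) := by
  by_cases h : Fc a f x
  · obtain ⟨Φ, h1, h2⟩ := h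
    filter_upwards [(H.contAt hx).eventually h1.eventually_analyticAt, h2.eventually_nhds]
      with y h3 h4 using iff_of_true ⟨Φ, h1, h2⟩ ⟨Φ, h3, h4⟩
  obtain ⟨i, hi⟩ := A.cover x
  obtain ⟨P⟩ := H.exists_pc hx hi
  have e0 := P.Γ_inv.and ((P.cpi.eventually (ball_mem_nhds _ P.pos)).and
    (P.cont.eventually (ball_mem_nhds _ P.pos)))
  filter_upwards [e0] with y ⟨h1, h2, h3⟩
  refine iff_of_false h fun ⟨Φ, _, h5⟩ => h ?_
  have hu : AnalyticOnNhd ℂ (fun w => f (P.Γ w)) (ball (a x, P.κ x) P.ρ) := fun w hw =>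
    AnalyticAt.comp (g := fun z => f ((A.e i).symm z)) (f := P.G)
      (holAt_an (hf i) H.opn _ (P.maps hw)) (P.an w hw)
  have hm : ∀ w ∈ ball (a x, P.κ x) P.ρ, (w.1, P.κ y) ∈ ball (a x, P.κ x) P.ρ := fun w hw =>
    P.mem_ball' (by rw [← ball_prod_same] at hw; exact hw.1) h3
  have hv : AnalyticOnNhd ℂ (fun w : Cn q × (Fin P.r → ℂ) => f (P.Γ (w.1, P.κ y)))
      (ball (a x, P.κ x) P.ρ) := fun w hw =>
    AnalyticAt.comp (g := fun w => f (P.Γ w)) (f := fun w : Cn q × (Fin P.r → ℂ) => (w.1, P.κ y))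
      (hu _ (hm w hw)) (analyticAt_fst.prod analyticAt_const)
  have hy := P.mem_ball' h2 h3
  have h6 : ∀ᶠ w in 𝓝 (a y, P.κ y), f (P.Γ w) = Φ w.1 := by
    have h7 := (P.Γ_cont hy).tendsto
    rw [h1] at h7
    filter_upwards [h7.eventually h5, isOpen_ball.mem_nhds hy] with w h8 h9
    rw [h8, P.π_Γ h9]
  have h7 : Tendsto (fun w : Cn q × (Fin P.r → ℂ) => (w.1, P.κ y)) (𝓝 (a y, P.κ y))
      (𝓝 (a y, P.κ y)) := Continuous.tendsto' (by fun_prop) _ _ rfl
  have h8 := hu.eqOn_of_preconnected_of_eventuallyEq hv (convex_ball _ _).isPreconnected hy (by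
    filter_upwards [h6, h7.eventually h6] with w h9 h10 using h9.trans h10.symm)
  refine ⟨fun s => f (P.Γ (s, P.κ y)), AnalyticAt.comp (g := fun w => f (P.Γ w))
    (f := fun s => (s, P.κ y)) (hu _ (P.mem_ball' (mem_ball_self P.pos) h3))
    (analyticAt_id.prod analyticAt_const), ?_⟩
  filter_upwards [e0] with z ⟨h9, h10, h11⟩
  exact (congrArg f h9).symm.trans (h8 (P.mem_ball' h10 h11))

theorem fc_all (H : Sbm A U a) (hU : IsPreconnected U) (hf : ∀ i, HolAt A i U f) {x y : M}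
    (hx : x ∈ U) (hy : y ∈ U) (h : Fc a f x) : Fc a f y :=
  (hU.induction₂ (fun u v => Fc a f u ↔ Fc a f v)
    (fun _ hu => mem_nhdsWithin_of_mem_nhds (fc_loc H hf hu)) (fun _ _ _ _ _ _ => Iff.trans)
    (fun _ _ _ _ => Iff.symm) hx hy).1 h

end fac

/-! ### the intermediate cover -/

variable {n q : ℕ} {X : Type} [TopologicalSpace X] {A : Atl n X} {G : Type} [Group G]
  (D : MonD A G) (M₁ : Subgroup G)

theorem cpt_mk : Cpt D D (QuotientGroup.mk : G → G ⧸ M₁) := fun _ _ _ _ => rfl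

/-- the projection to the intermediate cover -/
def pq (e : D.cov G) : D.cov (G ⧸ M₁) := cmap D D QuotientGroup.mk e

theorem pq_surj : Function.Surjective (pq D M₁) :=
  surjective_cmap (cpt_mk D M₁) QuotientGroup.mk_surjective

theorem pq_eq_iff {x y : D.cov G} : pq D M₁ x = pq D M₁ y ↔ ∃ g ∈ M₁, g • x = y := by
  obtain ⟨i, hi⟩ := A.cover (D.pr x)
  constructor
  · intro h
    have h1 : D.pr x = D.pr y := congrArg (D.pr (F := G ⧸ M₁)) h
    have h2 := congrArg (D.co i) h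
    rw [pq, pq, co_cmap (cpt_mk D M₁), co_cmap (cpt_mk D M₁), QuotientGroup.eq] at h2
    refine ⟨_, inv_mem h2, D.ext_co (i := i) hi h1 ?_⟩
    rw [D.co_deck, inv_inv, mul_inv_cancel_left]
  · rintro ⟨g, hg, rfl⟩
    refine D.ext_co (i := i) hi rfl ?_
    rw [pq, pq, co_cmap (cpt_mk D M₁), co_cmap (cpt_mk D M₁), QuotientGroup.eq, D.co_deck,
      inv_mul_cancel_left]
    exact inv_mem hg

variable {D M₁} {a : D.cov G → Cn q} {b : D.cov (G ⧸ M₁) → Cn q} {U : Set (D.cov G)}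

theorem read_eq (hb : ∀ x, b (pq D M₁ x) = a x) (i : A.ι) (v : G) :
    (fun z => b (((D.atl (G ⧸ M₁)).e (i, QuotientGroup.mk v)).symm z)) =
      fun z => a (((D.atl G).e (i, v)).symm z) :=
  (read_cmap (cpt_mk D M₁) b (i, v)).symm.trans (funext fun _ => hb _)

theorem holV_down (ha : HolV (D.atl G) univ a) (hb : ∀ x, b (pq D M₁ x) = a x) :
    HolV (D.atl (G ⧸ M₁)) univ b := by
  rintro ⟨i, w⟩
  obtain ⟨v, rfl⟩ := QuotientGroup.mk_surjective w
  rw [read_eq hb]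
  exact ha (i, v)

theorem sbm_down (ha : HolV (D.atl G) univ a) (H : Sbm (D.atl G) U a)
    (hb : ∀ x, b (pq D M₁ x) = a x) : Sbm (D.atl (G ⧸ M₁)) (pq D M₁ '' U) b := by
  refine ⟨isOpenMap_cmap (cpt_mk D M₁) _ H.opn,
    fun r => (holV_down ha hb r).mono fun z hz => ⟨hz.1, mem_univ _⟩,
    eq_empty_of_forall_notMem ?_⟩
  rintro _ ⟨⟨x, hx, rfl⟩, ⟨i, w⟩, hw, hn⟩
  obtain rfl : QuotientGroup.mk (D.co i x) = w := (co_cmap (cpt_mk D M₁) i x).symm.trans hw.2
  rw [read_eq hb] at hn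
  exact hn (H.surj (i := (i, D.co i x)) hx ⟨hw.1, rfl⟩)

theorem holAt_up {h : D.cov (G ⧸ M₁) → ℂ}
    (hh : ∀ r, HolAt (D.atl (G ⧸ M₁)) r (pq D M₁ '' U) h) (r : (D.atl G).ι) :
    HolAt (D.atl G) r U fun x => h (pq D M₁ x) := by
  obtain ⟨i, v⟩ := r
  refine Eq.mpr (congrArg (DifferentiableOn ℂ · _) (read_cmap (cpt_mk D M₁) h (i, v))) ?_
  exact DifferentiableOn.mono (hh (i, QuotientGroup.mk v)) fun z hz =>
    ⟨hz.1, _, hz.2, cmap_pt (cpt_mk D M₁) _ _ _⟩

variable [CompactSpace X] [T2Space X] [Finite A.ι]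

/-- **separation on the cover** -/
theorem sep [Countable G] (K : Kah A) (P : Part A) (ha : HolV (D.atl G) univ a)
    (H : Sbm (D.atl G) U a) (hU : IsPreconnected U) {x₁ x₂ : D.cov G}
    (hF : a ⁻¹' {a x₁} ⊆ U) {C : Set (D.cov G)} (hC : IsCompact C)
    (hc : ∀ y ∈ a ⁻¹' {a x₁}, ∃ g : G, (∀ z, a (g • z) = a z) ∧ g • y ∈ C) (e : a x₂ = a x₁)
    (hx : x₂ ∉ connectedComponentIn (a ⁻¹' {a x₁}) x₁) :
    ∃ h : D.cov G → ℂ, (∀ x ∈ U, Fc a h x) ∧ h x₁ ≠ h x₂ := by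
  have hcl : IsClosed (a ⁻¹' {a x₁}) := isClosed_singleton.preimage (continuous_of_sm (sm_a ha))
  have lc : ∀ y ∈ a ⁻¹' {a x₁}, connectedComponentIn (a ⁻¹' {a x₁}) y ∈ 𝓝[a ⁻¹' {a x₁}] y := by
    intro y hy
    obtain ⟨r, hr⟩ := (D.atl G).cover y
    rw [← show a y = a x₁ from hy]
    exact Gauss.Eta.Sub.conn ⟨hr, H.anAt (hF hy) hr, H.surj (hF hy) hr⟩ self_mem_nhdsWithin
  obtain ⟨K₁, k1, k2⟩ := stab_cocpt hcl lc hC hc
  set M₁ := stab G a x₁
  set F₁ := connectedComponentIn (a ⁻¹' {a x₁}) x₁ with hF₁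
  have hp : Continuous (pq D M₁) := continuous_cmap (cpt_mk D M₁)
  have ho : IsOpenMap (pq D M₁) := isOpenMap_cmap (cpt_mk D M₁)
  have : Countable (G ⧸ M₁) := QuotientGroup.mk_surjective.countable
  obtain ⟨b, hb⟩ : ∃ b : D.cov (G ⧸ M₁) → Cn q, ∀ x, b (pq D M₁ x) = a x := by
    refine ⟨fun y => a (Function.surjInv (pq_surj D M₁) y), fun x => ?_⟩
    obtain ⟨g, hg, h1⟩ := (pq_eq_iff D M₁).1 (Function.surjInv_eq (pq_surj D M₁) (pq D M₁ x))
    exact (hg.1 _).symm.trans (congrArg a h1)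
  have hbh := holV_down ha hb
  have HB := sbm_down ha H hb
  have i1 : ∀ x y, pq D M₁ x = pq D M₁ y → x ∈ F₁ → y ∈ F₁ := fun x y h hx => by
    obtain ⟨g, hg, rfl⟩ := (pq_eq_iff D M₁).1 h
    exact stab_smul hg hx
  have := Cov.B.locallyCompact D (F := G ⧸ M₁)
  obtain ⟨T, ρ, t1, t2, t3, t4, t5, t6⟩ := exists_tube (continuous_of_sm (sm_ps hbh (a x₁)))
    (Z := pq D M₁ '' F₁) (Z' := pq D M₁ '' (a ⁻¹' {a x₁} \ F₁))
    ((k1.image hp).of_isClosed_subset (closed_image ho (pq_surj D M₁) (closed_cc hcl rfl) i1) (by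
      rintro _ ⟨y, hy, rfl⟩
      obtain ⟨g, hg, h1⟩ := k2 y hy
      exact ⟨_, h1, ((pq_eq_iff D M₁).2 ⟨g, hg, rfl⟩).symm⟩))
    (closed_image ho (pq_surj D M₁) (closed_diff hcl lc x₁) fun x y h hx =>
      ⟨by rw [mem_preimage, ← hb y, ← h, hb]; exact hx.1, fun hy => hx.2 (i1 y x h.symm hy)⟩)
    (by rintro _ ⟨y, hy, rfl⟩ ⟨z, hz, h1⟩; exact hz.2 (i1 y z h1.symm hy)) HB.opn
    (image_mono ((connectedComponentIn_subset _ _).trans hF)) fun y hy => by
      obtain ⟨x, rfl⟩ := pq_surj D M₁ y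
      rw [ps_eq, hb, sq_nonpos_iff, norm_eq_zero, sub_eq_zero] at hy
      by_cases h1 : x ∈ F₁
      · exact Or.inl ⟨x, h1, rfl⟩
      · exact Or.inr ⟨x, ⟨hy, h1⟩, rfl⟩
  have h1 : pq D M₁ x₁ ∈ T := t3 ⟨x₁, mem_connectedComponentIn rfl, rfl⟩
  obtain ⟨h, h2, h3⟩ := Dt.exists_sep (pullKah D (G ⧸ M₁) K) ⟨hbh, HB, t1, t2, t5, t6⟩
    (D.pullPart (G ⧸ M₁) P) (Cov.E.cut_pullF D K P) h1 (x₂ := pq D M₁ x₂) ⟨x₂, hF e, rfl⟩
    (fun h => t4 h ⟨x₂, ⟨e, hx⟩, rfl⟩) (hb _) ((hb _).trans e)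
  refine ⟨fun x => h (pq D M₁ x), fun x hx => fc_all H hU (holAt_up h2) (hF rfl) hx ?_, h3⟩
  have hψ := continuous_of_sm (sm_ps hbh (a x₁))
  obtain ⟨Φ, h4, h5⟩ := (HB.mono (T' := T ∩ {y | ps b (a x₁) y < 2 * ρ})
    (t1.inter (isOpen_lt hψ continuous_const)) fun y hy => t2 hy.1).fac (fun y hy => by
      convert t6.inter_right (isClosed_singleton.preimage (continuous_of_sm (sm_a hbh))
        (t := {b y})) using 1
      refine subset_antisymm (fun z hz => ⟨⟨hz.1.1, le_of_lt hz.1.2⟩, hz.2⟩)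
        fun z hz => ⟨⟨hz.1.1, ?_⟩, hz.2⟩
      have h4 : ps b (a x₁) y < 2 * ρ := hy.2
      rwa [ps_eq, ← show b z = b y from hz.2, ← ps_eq] at h4)
    (fun r => (h2 r).mono fun y hy => t2 hy.1) (x := pq D M₁ x₁) ⟨h1, by
      rw [mem_ofPred_eq, ps_eq, hb, sub_self, norm_zero, zero_pow two_ne_zero]; positivity⟩
  rw [hb] at h4
  exact ⟨Φ, h4, (hp.continuousAt.eventually h5).mono fun z hz => hz.trans (congrArg Φ (hb z))⟩

variable (D) in
/-- **SEP** -/
theorem sepH [Countable G] (K : Kah A) (P : Part A) (H : Subgroup G) : Mn.SepH D H := by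
  intro q _ a L lam S hD hS t ht x₁ x₂ e1 e2 hx
  have ha : HolV (D.atl G) univ a := Sec.hol_univ hD.hol
  have e0 : ∀ y, S.a y = t ↔ a y = a x₁ := fun y => by
    rw [← e1, hS.a_eq]
    exact (WithLp.ofLp_injective 2).eq_iff
  have eF : S.a ⁻¹' {t} = a ⁻¹' {a x₁} := Set.ext e0
  obtain ⟨C, hC, hc⟩ := S.prop {t} isCompact_singleton
  obtain ⟨h, h1, h2⟩ := sep K P ha (U := S.U) ⟨S.op, fun r => (ha r).mono fun z hz =>
    ⟨hz.1, mem_univ _⟩, eq_empty_of_forall_notMem fun y hy =>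
      (hS.U_eq ▸ hy.1 : y ∈ (Crit (D.atl G) univ a)ᶜ) ⟨mem_univ _, hy.2⟩⟩ S.pre
    (fun y hy => S.reg y (((e0 y).2 hy).symm ▸ ht)) hC (fun y hy => by
      obtain ⟨g, hg, h3, h4⟩ := hc y ((e0 y).2 hy)
      refine ⟨g, fun z => WithLp.ofLp_injective 2 ?_, h4⟩
      have h5 := S.eqv g z
      rwa [h3, add_zero, S.LH g hg, hS.a_eq] at h5) ((e0 _).1 e2) (eF ▸ hx)
  refine ⟨h, fun x hx => ?_, h2⟩
  obtain ⟨Φ, h3, h4⟩ := h1 x hx
  refine ⟨fun s => Φ (WithLp.toLp 2 s), ?_, ?_⟩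
  · rw [hS.a_eq]
    exact AnalyticAt.comp (g := Φ) (f := fun s => WithLp.toLp 2 s) h3 (an_toLp _).1
  · rw [hS.a_eq]
    exact h4

variable (D) in
theorem sepH' [PreconnectedSpace (D.cov G)] (K : Kah A) (P : Part A) (H : Subgroup G) :
    Mn.SepH D H := fun q hq a L lam S hD hS t ht x₁ =>
  have : Nonempty X := ⟨D.pr x₁⟩
  have : Countable G := Cov.E.countable_fib D
  sepH D K P H q hq a L lam S hD hS t ht x₁

end

end Crest.Agent.X261.Sep93
end

-- ▼ part X261/Gauss/TP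
section

/-!
# Row 261, GAUSS (helper56), file `TP`: the two-point system of an equivariant family of lines

* `an_zero`  : zero sets of vector valued holomorphic families are analytic;
* `GM D κ W` : holomorphic rank one families in a Hilbert space, equivariant, with weights;
* `GM.tp`    : the two-point system `φ = log ‖b‖²`, `Ξ = log sin²`;
* `GM.of_tr`, `GM.of_shell` : what the outputs of RELN say about the lines.
-/

set_option autoImplicit false
set_option linter.unusedSectionVars false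
set_option linter.dupNamespace false

open Set Filter Topology MeasureTheory
open scoped ENNReal InnerProductSpace

namespace Crest.Agent.X261.Gauss

open Crest.Agent.R275.Geo Crest.Agent.R273.UCov_914
open Crest.Agent.X261.Plk Crest.Agent.X261.Psh
open Crest.Agent.X261.Ans (HA)
open Crest.Agent.X261.Eqv (TP AE PW)
open Crest.Agent.X261.Top (Tube)

noncomputable section

/-! ### the logarithm -/

/-- logarithm with values in `EReal` -/
def Lg (t : ℝ) : EReal := ENNReal.log (ENNReal.ofReal t)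

theorem Lg_mul {a : ℝ} (ha : 0 ≤ a) (b : ℝ) : Lg (a * b) = Lg a + Lg b := by
  rw [Lg, ENNReal.ofReal_mul ha, ENNReal.log_mul_add]; rfl

theorem Lg_exp (s : ℝ) : Lg (Real.exp s) = s := by
  rw [Lg, ENNReal.log_ofReal_of_pos (Real.exp_pos s), Real.log_exp]


theorem Lg_le {t a : ℝ} : Lg t ≤ a ↔ t ≤ Real.exp a := by
  rw [← Lg_exp, Lg, Lg, ENNReal.log_le_log_iff, ENNReal.ofReal_le_ofReal_iff (Real.exp_pos a).le]

theorem le_Lg {t a : ℝ} (h : (a : EReal) ≤ Lg t) : 0 < t := by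
  by_contra h0
  rw [Lg, ENNReal.ofReal_eq_zero.2 (not_lt.1 h0), ENNReal.log_zero] at h
  exact (EReal.bot_lt_coe a).not_ge h

theorem Lg_eq_bot {t : ℝ} : Lg t = ⊥ ↔ t ≤ 0 := by
  rw [Lg, ENNReal.log_eq_bot_iff, ENNReal.ofReal_eq_zero]

theorem Lg_add (a s : ℝ) : Lg (a * Real.exp (-s)) + (s : ℝ) = Lg a := by
  have h : a = Real.exp s * (a * Real.exp (-s)) := by
    rw [mul_left_comm, ← Real.exp_add, add_neg_cancel, Real.exp_zero, mul_one]
  conv_rhs => rw [h, Lg_mul (Real.exp_pos s).le, Lg_exp, add_comm]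

theorem isPsh_Lg {E F : Type*} [NormedAddCommGroup E] [NormedSpace ℂ E] [NormedAddCommGroup F]
    [NormedSpace ℂ F] {D : Set E} {f : E → F} (hD : IsOpen D) (hf : DifferentiableOn ℂ f D) :
    IsPsh D fun x => Lg (‖f x‖ ^ 2) :=
  ((isPsh_log_norm hD hf).add (isPsh_log_norm hD hf)).congr fun x _ => by
    simp only [sq]
    rw [Lg_mul (norm_nonneg _), Lg, ofReal_norm]

variable {n : ℕ} {X : Type} [TopologicalSpace X] {A : Atl n X} {G : Type} [Group G]

/-! ### zero sets -/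

theorem an_zero {W : Type*} [NormedAddCommGroup W] [InnerProductSpace ℂ W] (D : MonD A G)
    {Z : Set (D.cov G)} {κ : Type*} {f : A.ι → G → X → κ → W}
    (hf : ∀ i v k, DifferentiableOn ℂ (fun z => f i v ((A.e i).symm z) k) (A.e i).target)
    (h : ∀ i v, ∀ x ∈ (A.e i).source, (D.pt i v x ∈ Z ↔ f i v x = 0)) :
    (HA.of (D.atl G)).An univ Z := by
  intro y _
  obtain ⟨i, hi⟩ := A.cover (D.pr y)
  refine ⟨(i, D.co i y), ⟨hi, rfl⟩, (A.e i).target, (A.e i).open_target, (A.e i).map_source hi,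
    fun z hz hZ => ?_⟩
  have h1 : f i (D.co i y) ((A.e i).symm z) ≠ 0 := fun h0 =>
    hZ ((h i _ _ ((A.e i).map_target hz)).2 h0)
  obtain ⟨k, hk⟩ := Function.ne_iff.1 h1
  refine ⟨fun w => ⟪f i (D.co i y) ((A.e i).symm z) k, f i (D.co i y) ((A.e i).symm w) k⟫_ℂ,
    ⟨R266.SCV.analyticOnNhd_of_differentiableOn (A.e i).open_target
      ((innerSL ℂ _).differentiable.comp_differentiableOn (hf i _ k)), fun w hw hwZ => ?_⟩,
    fun h0 => hk (inner_self_eq_zero.1 h0)⟩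
  have := (h i _ _ ((A.e i).map_target hw)).1 hwZ
  simp [this]

/-! ### equivariant families of lines -/

/-- holomorphic families of rank one with weights -/
structure GM (D : MonD A G) (κ : Type) [Fintype κ] (W : Type) [NormedAddCommGroup W]
    [InnerProductSpace ℂ W] where
  b : A.ι → G → X → κ → W
  hol : ∀ i v k, DifferentiableOn ℂ (fun z => b i v ((A.e i).symm z) k) (A.e i).target
  r1 : ∀ i v, ∀ x ∈ (A.e i).source, R1 (b i v x)
  tr : ∀ i j v, ∀ x ∈ (A.e i).source ∩ (A.e j).source, ∀ k,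
    b i v x k ∈ Submodule.span ℂ (range (b j (D.c i j x * v) x))
  eqv : ∀ g : G, ∃ U : W →ₗᵢ[ℂ] W, ∀ i v, ∀ x ∈ (A.e i).source, ∀ k,
    b i (v * g⁻¹) x k = U (b i v x k)
  ne : ∃ i v, ∃ x ∈ (A.e i).source, b i v x ≠ 0
  wt : A.ι → X → ℝ
  wt_bdd : ∀ i, ∀ x ∈ (A.e i).source, ∃ C : ℝ, ∀ᶠ y in 𝓝 x, |wt i y| ≤ C
  wt_tr : ∀ i j v, ∀ x ∈ (A.e i).source ∩ (A.e j).source,
    ‖fn (b i v x)‖ ^ 2 * Real.exp (-wt i x) =
      ‖fn (b j (D.c i j x * v) x)‖ ^ 2 * Real.exp (-wt j x)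

/-- a chart at `x` -/
def ch (A : Atl n X) (x : X) : A.ι := (A.cover x).choose

theorem ch_mem (x : X) : x ∈ (A.e (ch A x)).source := (A.cover x).choose_spec

theorem norm_fn_map {κ W : Type*} [Fintype κ] [NormedAddCommGroup W] [InnerProductSpace ℂ W]
    (U : W →ₗᵢ[ℂ] W) (a : κ → W) : ‖fn fun k => U (a k)‖ = ‖fn a‖ := by
  refine (pow_left_inj₀ (norm_nonneg _) (norm_nonneg _) two_ne_zero).1 ?_
  simp only [norm_fn_sq, U.norm_map]

theorem snf_mul {κ W : Type*} [Fintype κ] [NormedAddCommGroup W] [InnerProductSpace ℂ W]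
    (a b : κ → W) : snf a b * ‖fn a‖ * ‖fn b‖ = ‖wf a b‖ := by
  rw [mul_assoc]
  rcases eq_or_ne (‖fn a‖ * ‖fn b‖) 0 with h | h
  · rw [h, mul_zero]
    exact le_antisymm (norm_nonneg _) ((norm_wf_le a b).trans h.le)
  · rw [snf, div_mul_cancel₀ _ h]

theorem Lg_wf {κ W : Type*} [Fintype κ] [NormedAddCommGroup W] [InnerProductSpace ℂ W]
    (a b : κ → W) (s t : ℝ) : Lg (‖wf a b‖ ^ 2) =
      Lg (snf a b ^ 2 * (‖fn a‖ ^ 2 * Real.exp (-s)) * (‖fn b‖ ^ 2 * Real.exp (-t))) +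
        ((s + t : ℝ) : EReal) := by
  rw [← snf_mul, ← Lg_add _ (s + t)]
  congr 2
  rw [neg_add, Real.exp_add]
  ring

namespace GM

variable {D : MonD A G} {κ : Type} [Fintype κ] {W : Type} [NormedAddCommGroup W]
  [InnerProductSpace ℂ W] (Γ : GM D κ W)

/-- the family at a point of the cover -/
def bb (y : D.cov G) : κ → W := Γ.b (ch A (D.pr y)) (D.co (ch A (D.pr y)) y) (D.pr y)

/-- the invariant norm -/
def nr (y : D.cov G) : ℝ := ‖fn (Γ.bb y)‖ ^ 2 * Real.exp (-Γ.wt (ch A (D.pr y)) (D.pr y))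

theorem nr_nonneg (y : D.cov G) : 0 ≤ Γ.nr y := by unfold nr; positivity

theorem bb_r1 (y : D.cov G) : R1 (Γ.bb y) := Γ.r1 _ _ _ (ch_mem _)

variable {i j : A.ι} {v v' : G} {x x' : X}

theorem bb_pt (hx : x ∈ (A.e i).source) :
    Γ.bb (D.pt i v x) = Γ.b (ch A x) (D.c i (ch A x) x * v) x := by
  unfold bb
  rw [D.pr_pt, D.co_pt' v hx (ch_mem x), smul_eq_mul]

theorem nr_pt (hx : x ∈ (A.e i).source) :
    Γ.nr (D.pt i v x) = ‖fn (Γ.b i v x)‖ ^ 2 * Real.exp (-Γ.wt i x) := by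
  rw [nr, Γ.bb_pt hx, Γ.wt_tr i (ch A x) v x ⟨hx, ch_mem x⟩, D.pr_pt]

theorem bb_eq_zero (hx : x ∈ (A.e i).source) : Γ.bb (D.pt i v x) = 0 ↔ Γ.b i v x = 0 := by
  have h := Γ.nr_pt (v := v) hx
  rw [nr] at h
  have key : ∀ (a : κ → W) (t : ℝ), a = 0 ↔ ‖fn a‖ ^ 2 * Real.exp t = 0 := fun a t => by
    rw [mul_eq_zero_iff_right (Real.exp_pos _).ne', pow_eq_zero_iff two_ne_zero, norm_eq_zero,
      fn_eq_zero]
  rw [key _ _, h, ← key]

theorem snf_pt (hx : x ∈ (A.e i).source) (hx' : x' ∈ (A.e j).source) :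
    snf (Γ.bb (D.pt i v x)) (Γ.bb (D.pt j v' x')) = snf (Γ.b i v x) (Γ.b j v' x') := by
  by_cases h : Γ.b i v x = 0
  · rw [h, (Γ.bb_eq_zero hx).2 h, snf_zero_left, snf_zero_left]
  by_cases h' : Γ.b j v' x' = 0
  · rw [h', (Γ.bb_eq_zero hx').2 h', snf_zero_right, snf_zero_right]
  refine (snf_congr LinearIsometry.id (Γ.bb_r1 _) (Γ.bb_r1 _) h h' (fun k => ?_) fun k => ?_).2.2.symm
  · rw [Γ.bb_pt hx]; exact Γ.tr i _ v x ⟨hx, ch_mem x⟩ k
  · rw [Γ.bb_pt hx']; exact Γ.tr j _ v' x' ⟨hx', ch_mem x'⟩ k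

theorem bb_deck (g : G) : ∃ U : W →ₗᵢ[ℂ] W, ∀ y, Γ.bb (g • y) = fun k => U (Γ.bb y k) := by
  obtain ⟨U, hU⟩ := Γ.eqv g
  refine ⟨U, fun y => funext fun k => ?_⟩
  unfold bb
  rw [D.co_deck, D.pr_deck]
  exact hU _ _ _ (ch_mem _) k

theorem nr_deck (g : G) (y : D.cov G) : Γ.nr (g • y) = Γ.nr y := by
  obtain ⟨U, hU⟩ := Γ.bb_deck g
  rw [nr, hU, norm_fn_map, D.pr_deck, nr]

theorem bb_deck_ne (g : G) {y : D.cov G} (h : Γ.bb y ≠ 0) : Γ.bb (g • y) ≠ 0 := by
  obtain ⟨U, hU⟩ := Γ.bb_deck g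
  rw [Ne, ← fn_eq_zero, ← norm_eq_zero, hU, norm_fn_map, norm_eq_zero, fn_eq_zero]
  exact h

theorem an_bb : (HA.of (D.atl G)).An univ {y | Γ.bb y = 0} :=
  an_zero D Γ.hol fun _ _ _ hx => Γ.bb_eq_zero hx

theorem hol_fn (i : A.ι) (v : G) :
    DifferentiableOn ℂ (fun z => fn (Γ.b i v ((A.e i).symm z))) (A.e i).target :=
  (PiLp.continuousLinearEquiv 2 ℂ fun _ : κ => W).symm.differentiable.comp_differentiableOn
    (differentiableOn_pi.2 (Γ.hol i v))

theorem hol_wf (i j : A.ι) (v v' : G) : DifferentiableOn ℂ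
    (fun z : Cn n × Cn n => wf (Γ.b i v ((A.e i).symm z.1)) (Γ.b j v' ((A.e j).symm z.2)))
    ((A.e i).target ×ˢ (A.e j).target) :=
  (PiLp.continuousLinearEquiv 2 ℂ fun _ : κ × κ => T2 W).symm.differentiable.comp_differentiableOn
    (differentiableOn_pi.2 fun p => DifferentiableOn.clm_apply (c := fun z : Cn n × Cn n =>
      w2L W (Γ.b i v ((A.e i).symm z.1) p.1))
      ((w2L W).differentiable.comp_differentiableOn
        ((Γ.hol i v p.1).comp differentiableOn_fst fun _ hz => hz.1))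
      ((Γ.hol j v' p.2).comp differentiableOn_snd fun _ hz => hz.2))

theorem ae_ne [ConnectedSpace (D.cov G)] :
    AE volume (HA.of (D.atl G)) fun y => Γ.bb y ≠ 0 := by
  refine Eqv.ae_of_cov (Γ.an_bb.cov_of_ne fun h => ?_)
  obtain ⟨i, v, x, hx, h0⟩ := Γ.ne
  exact h0 ((Γ.bb_eq_zero hx).1 (eq_univ_iff_forall.1 h (D.pt i v x)))

theorem pole [CompleteSpace W] (i : A.ι) (v : G) {z₀ : Cn n} (hz₀ : z₀ ∈ (A.e i).target) :
    ∃ C : ℝ, ∃ V ∈ 𝓝 z₀, ∀ z ∈ V, ∀ w ∈ V, Γ.bb (D.pt i v ((A.e i).symm z)) ≠ 0 →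
      ∀ r : ℝ, 0 < r → ‖z - w‖ ≤ r →
        Lg (snf (Γ.bb (D.pt i v ((A.e i).symm z))) (Γ.bb (D.pt i v ((A.e i).symm w))) ^ 2) +
          Lg (Γ.nr (D.pt i v ((A.e i).symm w))) ≤ (2 * Real.log r + C : ℝ) := by
  have h1 : ContDiffAt ℂ 1 (fun z => fn (Γ.b i v ((A.e i).symm z))) z₀ :=
    (R266.SCV.analyticOnNhd_of_differentiableOn (A.e i).open_target (Γ.hol_fn i v) z₀ hz₀).contDiffAt
  obtain ⟨L, t, ht, hL⟩ := h1.exists_lipschitzOnWith
  obtain ⟨C, hC⟩ := Γ.wt_bdd i _ ((A.e i).map_target hz₀)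
  have hC' := ((A.e i).continuousAt_symm hz₀).eventually hC
  refine ⟨2 * Real.log (L + 1) + C, _, inter_mem (inter_mem ht hC')
    ((A.e i).open_target.mem_nhds hz₀), fun z hz w hw h0 r hr hzw => ?_⟩
  have hz' := (A.e i).map_target hz.2
  have hw' := (A.e i).map_target hw.2
  rw [← Lg_mul (sq_nonneg _), Lg_le, Γ.snf_pt hz' hw', Γ.nr_pt hw', ← mul_assoc, ← mul_pow]
  set a := Γ.b i v ((A.e i).symm z)
  set b := Γ.b i v ((A.e i).symm w)
  have ha : 0 < ‖fn a‖ := norm_pos_iff.2 (mt fn_eq_zero.1 (mt (Γ.bb_eq_zero hz').2 h0))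
  have h2 : snf a b * ‖fn b‖ ≤ (L + 1) * r := by
    refine le_of_mul_le_mul_right ?_ ha
    rw [mul_right_comm, snf_mul, norm_wf_comm]
    refine (norm_wf_le_sub (Γ.r1 i v _ hz')).trans (mul_le_mul_of_nonneg_right ?_ ha.le)
    have h3 := hL.norm_sub_le hw.1.1 hz.1.1
    rw [norm_sub_rev w z] at h3
    refine h3.trans (mul_le_mul (by simp) hzw (norm_nonneg _) (by positivity))
  have h4 : Real.exp (-Γ.wt i ((A.e i).symm w)) ≤ Real.exp C :=
    Real.exp_le_exp.2 ((neg_le_abs _).trans hw.1.2)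
  have h5 : Real.exp (2 * Real.log r + (2 * Real.log (L + 1) + C)) =
      ((L + 1) * r) ^ 2 * Real.exp C := by
    rw [Real.exp_add, Real.exp_add, two_mul, two_mul, Real.exp_add, Real.exp_add, Real.exp_log hr,
      Real.exp_log (by positivity)]
    ring
  rw [h5]
  exact mul_le_mul (pow_le_pow_left₀ (mul_nonneg (snf_nonneg _ _) (norm_nonneg _)) h2 2) h4
    (Real.exp_pos _).le (sq_nonneg _)

variable [CompactSpace X] [T2Space X] [Finite A.ι] [ConnectedSpace (D.cov G)] [CompleteSpace W]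

/-- the two-point system -/
def tp : TP volume (HA.of (D.atl G)) G where
  hol := Ans.Brg.hol_deck D
  K := D.exists_fund.choose
  K_cpt := D.exists_fund.choose_spec.1
  K_cov := D.exists_fund.choose_spec.2
  wt q z := Γ.wt q.1 ((A.e q.1).symm z)
  wt_bdd q z hz := by
    obtain ⟨C, hC⟩ := Γ.wt_bdd q.1 _ ((A.e q.1).map_target hz)
    exact ⟨C, ((A.e q.1).continuousAt_symm hz).eventually hC⟩
  φ y := Lg (Γ.nr y)
  φ_psh q := (isPsh_Lg (A.e q.1).open_target (Γ.hol_fn q.1 q.2)).congr fun z hz => by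
    change _ = Lg (Γ.nr (D.pt q.1 q.2 _)) + _
    rw [Γ.nr_pt ((A.e q.1).map_target hz), Lg_add]
  φ_inv g y := by rw [Γ.nr_deck]
  M0 := {y | Γ.bb y ≠ 0}
  M0_ae := Γ.ae_ne
  M0_inv g _ h := Γ.bb_deck_ne g h
  M0_fin y h := fun h0 => (Lg_eq_bot.1 h0).not_gt
    (mul_pos (pow_pos (norm_pos_iff.2 (mt fn_eq_zero.1 h)) 2) (Real.exp_pos _))
  u _ q := Lg (snf (Γ.bb q.1) (Γ.bb q.2) ^ 2 * Γ.nr q.1 * Γ.nr q.2)
  u_psh _ q := (isPsh_Lg ((A.e q.1.1).open_target.prod (A.e q.2.1).open_target)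
      (Γ.hol_wf q.1.1 q.2.1 q.1.2 q.2.2)).congr fun z hz => by
    have h1 := (A.e q.1.1).map_target hz.1
    have h2 := (A.e q.2.1).map_target hz.2
    change _ = Lg (snf (Γ.bb (D.pt q.1.1 q.1.2 _)) (Γ.bb (D.pt q.2.1 q.2.2 _)) ^ 2 *
      Γ.nr (D.pt q.1.1 q.1.2 _) * Γ.nr (D.pt q.2.1 q.2.2 _)) + _
    rw [Γ.snf_pt h1 h2, Γ.nr_pt h1, Γ.nr_pt h2]
    exact Lg_wf _ _ _ _
  Xi _ x y := Lg (snf (Γ.bb x) (Γ.bb y) ^ 2)
  u_eq _ _ := Eventually.of_forall fun _ _ => by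
    beta_reduce
    rw [Lg_mul (mul_nonneg (sq_nonneg _) (Γ.nr_nonneg _)), Lg_mul (sq_nonneg _)]
  Xi_le _ x _ y _ := by
    rw [← EReal.coe_zero, Lg_le, Real.exp_zero]
    exact pow_le_one₀ (snf_nonneg _ _) (snf_le_one _ _)
  Xi_symm _ x _ y _ := by rw [snf_comm]
  Xi_inv _ g x hx y hy := by
    obtain ⟨U, hU⟩ := Γ.bb_deck g
    rw [(snf_congr U (Γ.bb_r1 x) (Γ.bb_r1 y) (Γ.bb_deck_ne g hx) (Γ.bb_deck_ne g hy)
      (fun k => by rw [hU]; exact Submodule.subset_span ⟨k, rfl⟩)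
      fun k => by rw [hU]; exact Submodule.subset_span ⟨k, rfl⟩).2.2]
  tri _ := ⟨1, Real.log 4, one_pos, fun x _ y hy z _ a _ h1 h2 => by
    rw [Lg_le] at h1 h2 ⊢
    have h3 := snf_tri (Γ.bb_r1 x) (Γ.bb_r1 y) (Γ.bb_r1 z) hy
    rw [one_mul, sub_eq_add_neg, Real.exp_add, Real.exp_log four_pos]
    have h4 := pow_le_pow_left₀ (snf_nonneg _ _) h3 2
    nlinarith [sq_nonneg (snf (Γ.bb x) (Γ.bb y) - snf (Γ.bb y) (Γ.bb z))]⟩
  pole _ := ⟨2, two_pos, fun q z₀ hz₀ => by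
    obtain ⟨C, V, hV, h⟩ := Γ.pole q.1 q.2 hz₀
    exact ⟨C, V, hV, fun z hz w hw h1 _ => h z hz w hw h1⟩⟩

theorem of_tr (h : Rn.Tr Γ.tp) : ∃ N : Subgroup G, N.Normal ∧ N ≠ ⊥ ∧
    AE volume (HA.of (D.atl G)) fun y => Γ.bb y ≠ 0 ∧ ∀ g ∈ N, snf (Γ.bb y) (Γ.bb (g • y)) = 0 := by
  obtain ⟨N, h1, h2, h3⟩ := h
  exact ⟨N, h1, h2, h3.mono fun y hy => ⟨hy.1, fun g hg =>
    pow_eq_zero_iff two_ne_zero |>.1 (le_antisymm (Lg_eq_bot.1 (hy.2 g hg 0)) (sq_nonneg _))⟩⟩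

theorem of_shell {p : ℕ} {𝒯 : Tube (D.atl G) G p} (h : Rn.Shell 𝒯 Γ.tp) :
    AE volume (HA.of (D.atl G)) fun y => y ∈ 𝒯.M0 ∧ Γ.bb y ≠ 0 ∧
      ∀ᶠ x in 𝓝 y, snf (Γ.bb x) (Γ.bb y) = 0 → 𝒯.π y x = 0 := by
  refine Eqv.AE.mono h fun y hy => ⟨hy.1, hy.2.1.mem, ?_⟩
  obtain ⟨h1, h2, k, U, hU, h3⟩ := hy
  have h4 : ∀ᶠ x in 𝓝 y, Γ.bb x ≠ 0 := by
    obtain ⟨i, hi⟩ := A.cover (D.pr y)
    have h5 : ContinuousAt (fun x => fn (Γ.b i (D.co i y) ((A.e i).symm (A.e i (D.pr x))))) y :=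
      ContinuousAt.comp (g := fun z => fn (Γ.b i (D.co i y) ((A.e i).symm z)))
        ((Γ.hol_fn i _).continuousOn.continuousAt
          ((A.e i).open_target.mem_nhds ((A.e i).map_source hi)))
        (((A.e i).continuousAt hi).comp D.continuous_pr.continuousAt)
    have h6 : Γ.b i (D.co i y) (D.pr y) ≠ 0 := fun h0 =>
      h2.mem (by rw [← D.pt_co hi]; exact (Γ.bb_eq_zero hi).2 h0)
    filter_upwards [D.co_eventually hi, h5.eventually_ne (y := 0)
      (by rw [(A.e i).left_inv hi]; exact mt fn_eq_zero.1 h6)] with x hx hx' h0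
    rw [(A.e i).left_inv hx.1, ← hx.2] at hx'
    rw [← D.pt_co hx.1] at h0
    exact hx' (fn_eq_zero.2 ((Γ.bb_eq_zero hx.1).1 h0))
  filter_upwards [hU, h4, (𝒯.T_opn y h1).mem_nhds (𝒯.T_mem y h1)] with x hx hx0 hxT h0
  by_contra hne
  obtain ⟨a, ha⟩ := h3 _ (norm_pos_iff.2 hne)
  have := le_Lg (ha x hx hxT le_rfl hx0)
  rw [h0] at this
  simp at this

end GM

end

end Crest.Agent.X261.Gauss
end

-- ▼ part X261/Gauss/GS
section

/-!
# Row 261, GAUSS (helper56), file `GS`: the Gauss map of `S`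

* `GM.ofBd`   : weights from local comparability of the norms;
* `Frm.sp`, `Frm.Rk r` : the span of the values of `S`, its maximal dimension;
* `Frm.gm`    : the family of Plücker vectors;
* `Frm.triv`  : no nontrivial normal subgroup preserves a value of the Gauss map.
-/

set_option autoImplicit false
set_option linter.unusedSectionVars false
set_option linter.dupNamespace false

open Set Filter Topology MeasureTheory Module Matrix
open scoped ENNReal InnerProductSpace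

namespace Crest.Agent.X261.Gauss

open Crest.Agent.R275.Geo Crest.Agent.R275.Core144 Crest.Agent.R273.UCov_914
open Crest.Agent.R273.Fock_243 (FI Gam)
open Crest.Agent.R189 (Amen)
open Crest.Agent.X261.Plk (R1 fn wf snf Pc wc pmc norm_le_fn)

noncomputable section

variable {n : ℕ} {X : Type} [TopologicalSpace X] {A : Atl n X} {G : Type} [Group G]

theorem exists_wt [CompactSpace X] [T2Space X] [Finite A.ι] {N : A.ι → X → ℝ}
    (h0 : ∀ i x, 0 ≤ N i x) (h : ∀ i j, ∃ m : X → ℝ,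
      ContinuousOn m ((A.e i).source ∩ (A.e j).source) ∧
        ∀ x ∈ (A.e i).source ∩ (A.e j).source, N i x ≤ m x * N j x) :
    ∃ wt : A.ι → X → ℝ, (∀ i, ∀ x ∈ (A.e i).source, ∃ C : ℝ, ∀ᶠ y in 𝓝 x, |wt i y| ≤ C) ∧
      ∀ i j, ∀ x ∈ (A.e i).source ∩ (A.e j).source,
        N i x ^ 2 * Real.exp (-wt i x) = N j x ^ 2 * Real.exp (-wt j x) := by
  obtain ⟨K, hK1, hK2, hK3⟩ := MonD.exists_shrink A
  choose c hc using fun x => mem_iUnion.1 (eq_univ_iff_forall.1 hK3 x)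
  choose m hm hle using h
  have hz : ∀ i j, ∀ x ∈ (A.e i).source ∩ (A.e j).source, N j x = 0 → N i x = 0 :=
    fun i j x hx h1 => le_antisymm (by simpa [h1] using hle i j x hx) (h0 i x)
  have key : ∀ i, ∀ x ∈ (A.e i).source,
      N i x ^ 2 * Real.exp (-Real.log (N i x ^ 2 / N (c x) x ^ 2)) = N (c x) x ^ 2 := by
    intro i x hx
    by_cases h1 : N i x = 0
    · rw [h1, hz _ _ x ⟨hK2 _ (hc x), hx⟩ h1]; simp
    · have h2 : N (c x) x ≠ 0 := fun h2 => h1 (hz _ _ x ⟨hx, hK2 _ (hc x)⟩ h2)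
      rw [Real.exp_neg, Real.exp_log (by positivity)]
      field_simp
  refine ⟨fun i x => Real.log (N i x ^ 2 / N (c x) x ^ 2), fun i x hx => ?_,
    fun i j x hx => by rw [key i x hx.1, key j x hx.2]⟩
  obtain ⟨V, hV, hVs, hVc⟩ := local_compact_nhds ((A.e i).open_source.mem_nhds hx)
  have hb : ∀ j, ∃ M : ℝ, ∀ y ∈ V ∩ K j, m i j y ≤ M ∧ m j i y ≤ M := by
    intro j
    have hc' : IsCompact (V ∩ K j) := hVc.inter (hK1 j)
    obtain ⟨M1, h1⟩ := hc'.bddAbove_image ((hm i j).mono fun y hy => ⟨hVs hy.1, hK2 j hy.2⟩)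
    obtain ⟨M2, h2⟩ := hc'.bddAbove_image ((hm j i).mono fun y hy => ⟨hK2 j hy.2, hVs hy.1⟩)
    exact ⟨max M1 M2, fun y hy => ⟨(h1 ⟨y, hy, rfl⟩).trans (le_max_left _ _),
      (h2 ⟨y, hy, rfl⟩).trans (le_max_right _ _)⟩⟩
  choose M hM using hb
  obtain ⟨M', hM'⟩ := (finite_range M).bddAbove
  refine ⟨Real.log (max M' 1 ^ 2), Filter.mem_of_superset hV fun y hy => ?_⟩
  have hy1 := hVs hy
  have hy2 := hK2 _ (hc y)
  have h3 : M (c y) ≤ max M' 1 := (hM' ⟨_, rfl⟩).trans (le_max_left _ _)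
  have h4 : (1 : ℝ) ≤ max M' 1 := le_max_right _ _
  change |Real.log (N i y ^ 2 / N (c y) y ^ 2)| ≤ _
  by_cases h1 : N i y = 0
  · rw [h1]
    simpa using Real.log_nonneg h4
  have h2 : N (c y) y ≠ 0 := fun h2 => h1 (hz _ _ y ⟨hy1, hy2⟩ h2)
  have h5 : 0 < N i y := (h0 _ _).lt_of_ne' h1
  have h6 : 0 < N (c y) y := (h0 _ _).lt_of_ne' h2
  have h7 : N i y ≤ max M' 1 * N (c y) y := (hle _ _ y ⟨hy1, hy2⟩).trans
    (mul_le_mul_of_nonneg_right (((hM _ y ⟨hy, hc y⟩).1).trans h3) h6.le)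
  have h8 : N (c y) y ≤ max M' 1 * N i y := (hle _ _ y ⟨hy2, hy1⟩).trans
    (mul_le_mul_of_nonneg_right (((hM _ y ⟨hy, hc y⟩).2).trans h3) h5.le)
  rw [abs_le]
  constructor
  · rw [neg_le, ← Real.log_inv, inv_div]
    refine Real.log_le_log (by positivity) ?_
    rw [div_le_iff₀ (by positivity), ← mul_pow]
    exact pow_le_pow_left₀ h6.le h8 2
  · refine Real.log_le_log (by positivity) ?_
    rw [div_le_iff₀ (by positivity), ← mul_pow]
    exact pow_le_pow_left₀ h5.le h7 2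

theorem contOn_of_holAt {i : A.ι} {U : Set X} {f : X → ℂ} (h : HolAt A i U f) :
    ContinuousOn f ((A.e i).source ∩ U) :=
  (h.continuousOn.comp ((A.e i).continuousOn.mono inter_subset_left) fun x hx =>
    ⟨(A.e i).map_source hx.1, by rw [mem_preimage, (A.e i).left_inv hx.1]; exact hx.2⟩).congr
    fun x hx => by rw [Function.comp_apply, (A.e i).left_inv hx.1]

theorem contOn_GamJ (i j : A.ι) (S T : FI n) :
    ContinuousOn (fun x => Gam (Jm A i j x)ᵀ S T) ((A.e i).source ∩ (A.e j).source) := by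
  have h : Continuous fun B : Matrix (Fin n) (Fin n) ℂ => Gam B S T := by
    unfold Gam
    split_ifs
    · exact (continuous_id.matrix_submatrix _ _).matrix_det
    · exact continuous_const
  exact h.comp_continuousOn (continuousOn_pi.2 fun a => continuousOn_pi.2 fun b =>
    contOn_of_holAt (holAt_J i j b a))

section wc

variable {H : Type} [NormedAddCommGroup H] [InnerProductSpace ℂ H] {r : ℕ}

/-- the Plücker vectors of a finite family -/
def pl (r : ℕ) (S : FI n → H) : (Fin r → FI n) → Pc H r := fun I => wc H r fun k => S (I k)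

theorem pl_mv (B : Matrix (FI n) (FI n) ℂ) (S : FI n → H) (I : Fin r → FI n) :
    pl r (mv B S) I = ∑ J : Fin r → FI n, (∏ k, B (I k) (J k)) • pl r S J := by
  unfold pl mv
  refine ((wc H r).toContinuousMultilinearMap.toMultilinearMap.map_sum
    (fun k J => B (I k) J • S J)).trans (Finset.sum_congr rfl fun J _ => ?_)
  exact (wc H r).toContinuousMultilinearMap.toMultilinearMap.map_smul_univ _ _

theorem norm_fn_le_sum {κ W : Type*} [Fintype κ] [NormedAddCommGroup W] [InnerProductSpace ℂ W]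
    (a : κ → W) : ‖fn a‖ ≤ ∑ k, ‖a k‖ := by
  refine (pow_le_pow_iff_left₀ (norm_nonneg _) (by positivity) two_ne_zero).1 ?_
  rw [Plk.norm_fn_sq]
  exact Finset.sum_sq_le_sq_sum_of_nonneg fun k _ => norm_nonneg _

theorem norm_pl_mv (B : Matrix (FI n) (FI n) ℂ) (S : FI n → H) :
    ‖fn (pl r (mv B S))‖ ≤
      (∑ I : Fin r → FI n, ∑ J : Fin r → FI n, ‖∏ k, B (I k) (J k)‖) * ‖fn (pl r S)‖ := by
  refine (norm_fn_le_sum _).trans ?_
  rw [Finset.sum_mul]
  refine Finset.sum_le_sum fun I _ => ?_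
  rw [pl_mv, Finset.sum_mul]
  refine (norm_sum_le _ _).trans (Finset.sum_le_sum fun J _ => ?_)
  rw [norm_smul]
  exact mul_le_mul_of_nonneg_left (norm_le_fn _ _) (norm_nonneg _)

theorem span_sub_le (S : FI n → H) (I : Fin r → FI n) :
    Submodule.span ℂ (range fun k => S (I k)) ≤ Submodule.span ℂ (range S) :=
  Submodule.span_mono (by rintro _ ⟨k, rfl⟩; exact ⟨_, rfl⟩)

theorem span_of_pl {S : FI n → H} (hr : finrank ℂ (Submodule.span ℂ (range S)) ≤ r)
    {I : Fin r → FI n} (hI : pl r S I ≠ 0) :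
    Submodule.span ℂ (range fun k => S (I k)) = Submodule.span ℂ (range S) ∧
      finrank ℂ (Submodule.span ℂ (range S)) = r := by
  have := FiniteDimensional.span_of_finite ℂ (finite_range S)
  have h1 := finrank_span_eq_card (Plk.wc_ne_zero_iff.1 hI)
  rw [Fintype.card_fin] at h1
  have h2 := Submodule.eq_of_le_of_finrank_le (span_sub_le S I) (hr.trans h1.ge)
  exact ⟨h2, h2 ▸ h1⟩

theorem pl_ne_zero {S : FI n → H} (hr : finrank ℂ (Submodule.span ℂ (range S)) = r) :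
    pl r S ≠ 0 := by
  obtain ⟨κ, a, -, h1, h2⟩ := exists_linearIndependent' ℂ S
  have : Finite κ := by
    have := FiniteDimensional.span_of_finite ℂ (finite_range S)
    have h3 : LinearIndependent ℂ fun k => (⟨S (a k), Submodule.subset_span ⟨_, rfl⟩⟩ :
        Submodule.span ℂ (range S)) :=
      LinearIndependent.of_comp (Submodule.span ℂ (range S)).subtype h2
    exact h3.finite
  have := Fintype.ofFinite κ
  have h3 := finrank_span_eq_card h2
  rw [h1, hr] at h3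
  let e : Fin r ≃ κ := (Fintype.equivFinOfCardEq h3.symm).symm
  exact Function.ne_iff.2 ⟨fun k => a (e k), Plk.wc_ne_zero_iff.2 (h2.comp e e.injective)⟩

theorem pl_of_le {S S' : FI n → H} (hr : finrank ℂ (Submodule.span ℂ (range S')) ≤ r)
    {J : Fin r → FI n} (hJ : pl r S' J ≠ 0) (h : ∀ I, S I ∈ Submodule.span ℂ (range S'))
    (I : Fin r → FI n) : ∃ c : ℂ, pl r S I = c • pl r S' J :=
  Plk.wc_of_span_le fun k => by rw [(span_of_pl hr hJ).1]; exact h _

theorem pl_r1 {S : FI n → H} (hr : finrank ℂ (Submodule.span ℂ (range S)) ≤ r) : R1 (pl r S) := by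
  by_cases h : pl r S = 0
  · exact ⟨0, fun I => ⟨0, by simp [h]⟩⟩
  · obtain ⟨J, hJ⟩ := Function.ne_iff.1 h
    exact ⟨_, pl_of_le hr hJ fun I => Submodule.subset_span ⟨I, rfl⟩⟩

theorem snf_pl_of_le {S S' : FI n → H} (hr : finrank ℂ (Submodule.span ℂ (range S')) = r)
    (h : ∀ I, S I ∈ Submodule.span ℂ (range S')) : snf (pl r S) (pl r S') = 0 := by
  obtain ⟨J, hJ⟩ := Function.ne_iff.1 (pl_ne_zero hr)
  rw [snf, Plk.wf_eq_zero.2, norm_zero, zero_div]
  intro I I'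
  obtain ⟨c, hc⟩ := pl_of_le hr.le hJ h I
  obtain ⟨c', hc'⟩ := pl_of_le hr.le hJ (fun I => Submodule.subset_span ⟨I, rfl⟩) I'
  rw [hc, hc', Plk.w2_smul_left, Plk.w2_smul_right, Plk.w2_self, smul_zero, smul_zero]

theorem span_eq_of_snf {S S' : FI n → H} (hr : finrank ℂ (Submodule.span ℂ (range S)) = r)
    (hr' : finrank ℂ (Submodule.span ℂ (range S')) = r) (h : snf (pl r S) (pl r S') = 0) :
    Submodule.span ℂ (range S) = Submodule.span ℂ (range S') := by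
  obtain ⟨I, hI⟩ := Function.ne_iff.1 (pl_ne_zero hr)
  obtain ⟨J, hJ⟩ := Function.ne_iff.1 (pl_ne_zero hr')
  rw [Plk.snf_eq_sn (pl_r1 hr.le) (pl_r1 hr'.le) hI hJ, Plk.sn_eq_zero_iff hI hJ] at h
  obtain ⟨c, hc⟩ := h
  rw [← (span_of_pl hr.le hI).1, ← (span_of_pl hr'.le hJ).1]
  exact Plk.span_eq_of_wc hI hc

end wc

namespace Frm

variable {D : MonD A G} {q : ℕ} {H : Type} [NormedAddCommGroup H] [InnerProductSpace ℂ H]
  (Φ : Frm D q H)

/-- `r` is the maximal rank of `S` -/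
structure Rk (r : ℕ) : Prop where
  le : ∀ i v, ∀ x ∈ (A.e i).source, finrank ℂ (Submodule.span ℂ (range (Φ.S i v x))) ≤ r
  eq : ∃ i v, ∃ x ∈ (A.e i).source, finrank ℂ (Submodule.span ℂ (range (Φ.S i v x))) = r
  pos : 1 ≤ r

theorem exists_rk : ∃ r, Φ.Rk r := by
  classical
  let P : ℕ → Prop := fun r =>
    ∃ i v, ∃ x ∈ (A.e i).source, finrank ℂ (Submodule.span ℂ (range (Φ.S i v x))) = r
  have hb : ∀ i v x, finrank ℂ (Submodule.span ℂ (range (Φ.S i v x))) ≤ Fintype.card (FI n) :=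
    fun i v x => finrank_range_le_card _
  obtain ⟨i, v, x, hx, h0⟩ := Φ.S_ne
  have hle : ∀ i v, ∀ x ∈ (A.e i).source, finrank ℂ (Submodule.span ℂ (range (Φ.S i v x))) ≤
      Nat.findGreatest P (Fintype.card (FI n)) :=
    fun i v x hx => Nat.le_findGreatest (hb i v x) ⟨i, v, x, hx, rfl⟩
  refine ⟨_, hle, Nat.findGreatest_spec (P := P) (hb i v x) ⟨i, v, x, hx, rfl⟩,
    le_trans ?_ (hle i v x hx)⟩
  have := FiniteDimensional.span_of_finite ℂ (finite_range (Φ.S i v x))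
  rw [Nat.one_le_iff_ne_zero, Ne, Submodule.finrank_eq_zero, Submodule.span_eq_bot]
  exact fun h => h0 (funext fun I => h _ ⟨I, rfl⟩)

theorem pl_eqv (r : ℕ) (g : G) {i : A.ι} (v : G) {x : X} (hx : x ∈ (A.e i).source)
    (I : Fin r → FI n) :
    pl r (Φ.S i (v * g⁻¹) x) I = pmc (Φ.ρ g).toLinearIsometry r (pl r (Φ.S i v x) I) := by
  unfold pl
  rw [Plk.pmc_wc]
  exact congrArg _ (funext fun k => Φ.S_eqv g i v x hx _)

theorem norm_pl (r : ℕ) {i : A.ι} (v : G) {x : X} (hx : x ∈ (A.e i).source) :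
    ‖fn (pl r (Φ.S i v x))‖ = ‖fn (pl r (Φ.S i 1 x))‖ := by
  have h := funext (Φ.pl_eqv r v⁻¹ 1 hx)
  rw [inv_inv, one_mul] at h
  rw [show pl r (Φ.S i v x) = _ from h, norm_fn_map]

theorem exists_gm [CompactSpace X] [T2Space X] [Finite A.ι] {r : ℕ} (hr : Φ.Rk r) :
    ∃ Γ : GM D (Fin r → FI n) (Pc H r), ∀ i v x, Γ.b i v x = pl r (Φ.S i v x) := by
  obtain ⟨wt, h1, h2⟩ := exists_wt (A := A) (N := fun i x => ‖fn (pl r (Φ.S i 1 x))‖)
    (fun _ _ => norm_nonneg _) fun i j => ⟨fun x => ∑ I : Fin r → FI n, ∑ J : Fin r → FI n,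
      ‖∏ k, Gam (Jm A i j x)ᵀ (I k) (J k)‖, continuousOn_finsetSum _ fun I _ =>
        continuousOn_finsetSum _ fun J _ =>
          (continuousOn_finsetProd _ fun k _ => contOn_GamJ i j _ _).norm, fun x hx => by
      rw [Φ.S_tr i j 1 x hx, ← Φ.norm_pl r (D.c i j x * 1) hx.2]
      exact norm_pl_mv _ _⟩
  refine ⟨⟨fun i v x => pl r (Φ.S i v x), fun i v I => ?_, fun i v x hx => pl_r1 (hr.le i v x hx),
    fun i j v x hx I => ?_, fun g => ⟨_, fun i v x hx => Φ.pl_eqv r g v hx⟩, ?_, wt, h1,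
    fun i j v x hx => ?_⟩, fun _ _ _ => rfl⟩
  · exact Plk.differentiable_wc.comp_differentiableOn
      (differentiableOn_pi.2 fun k => Φ.S_hol i v (I k))
  · rw [Φ.S_tr i j v x hx, pl_mv]
    exact Submodule.sum_mem _ fun J _ => Submodule.smul_mem _ _ (Submodule.subset_span ⟨J, rfl⟩)
  · obtain ⟨i, v, x, hx, h⟩ := hr.eq
    exact ⟨i, v, x, hx, pl_ne_zero h⟩
  · rw [Φ.norm_pl r v hx.1, Φ.norm_pl r _ hx.2]
    exact h2 i j x hx

/-- the case of a normal subgroup acting trivially on the leaf space -/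
theorem triv (hG : Grp.JN G) (hA : Amen G) {K : Subgroup G} (hK : K.FG) (hv : ¬ Grp.VInd K)
    (hF : Φ.NoFix K) {N : Subgroup G} (hN : N.Normal) (hN0 : N ≠ ⊥) {i : A.ι} {v : G} {x : X}
    (hx : x ∈ (A.e i).source)
    (h : ∀ g ∈ N, ∀ I, Φ.S i (v * g⁻¹) x I ∈ Submodule.span ℂ (range (Φ.S i v x))) :
    Φ.S i v x = 0 := by
  classical
  set T := Submodule.span ℂ (range (Φ.S i v x))
  have : FiniteDimensional ℂ T := FiniteDimensional.span_of_finite ℂ (finite_range _)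
  have hT : ∀ g ∈ N, ∀ y ∈ T, (Φ.ρ g).toLinearEquiv.toLinearMap y ∈ T := by
    intro g hg y hy
    refine (Submodule.span_le (p := T.comap (Φ.ρ g).toLinearEquiv.toLinearMap)).2 ?_ hy
    rintro _ ⟨I, rfl⟩
    have := h g hg I
    rwa [Φ.S_eqv g i v x hx] at this
  have h1 : Grp.FI (N ⊓ K) K := by
    by_contra h1
    obtain ⟨L, hL, hL'⟩ := hG.quot N hN hN0
    exact hv ((Grp.VSm.mono (N := N) (K := ⊤)
      ⟨L, Grp.FI.of_finiteIndex L, 1, Subgroup.commutator_le.2 hL'⟩ le_rfl le_top).vind hK h1)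
  let ρ' : G → End ℂ T := fun g =>
    if hg : g ∈ N then (Φ.ρ g).toLinearEquiv.toLinearMap.restrict (hT g hg) else 1
  have hρ : ∀ g ∈ N, ∀ y : T, (ρ' g y : H) = Φ.ρ g y := fun g hg y => by
    simp only [ρ', dif_pos hg]; rfl
  obtain ⟨K', hK', h2⟩ := Grp.finite_of_not_vind' (K := N ⊓ K) (ρ := ρ')
    ⟨by ext y; rw [hρ 1 N.one_mem]; simp, fun a ha b hb => by
      ext y
      rw [hρ _ (N.mul_mem ha.1 hb.1), End.mul_apply, hρ a ha.1, hρ b hb.1, map_mul]; rfl⟩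
    (Grp.amen_mono (Grp.amen_top_iff.2 hA) le_top) (h1.fg hK) fun h3 => hv (h3.of_fi h1)
  funext I
  refine inner_self_eq_zero.1 (hF K' (hK'.trans h1) _ (fun g hg => ?_) i v x hx I)
  have := hρ g (hK'.le hg).1 ⟨_, Submodule.subset_span ⟨I, rfl⟩⟩
  rw [h2 g hg] at this
  exact this.symm

end Frm

end

end Crest.Agent.X261.Gauss
end

-- ▼ part X261/Gauss/Eta
section

/-!
# Row 261, GAUSS (helper28), file `Eta`: the compact fibres are characteristic

`etaStmt : EtaStmt`.  On a component `Y` of the preimage of a compact fibre the maximum principle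
shows first that `al` is constant (by `SUB`), then that the fibre primitives are constant.
-/

set_option autoImplicit false
set_option linter.unusedSectionVars false
set_option linter.dupNamespace false

open Set Filter Topology Complex Matrix
open scoped InnerProductSpace

namespace Crest.Agent.X261.Gauss.Eta

open Crest.Agent.R275.Geo Crest.Agent.R275.Core144
open Crest.Agent.R275.OmT75 (dl dj dj_holo)
open Crest.Agent.R273.UCov_914
open Crest.Agent.R273.Fock_243 (FI eW iW)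
open Crest.Agent.R266.SCV (analyticOnNhd_of_differentiableOn)
open Crest.Agent.X261.Top (Tube)
open Crest.Agent.X261.Cov.A

noncomputable section

variable {n : ℕ}

theorem dot_eq {f : Cn n → ℂ} {z : Cn n} (hf : DifferentiableAt ℂ f z) (w : Fin n → ℂ) :
    (fun b => dj b f z) ⬝ᵥ w = fderiv ℂ f z (WithLp.toLp 2 w) := by
  have h : (WithLp.toLp 2 w : Cn n) = ∑ b, w b • EuclideanSpace.single b (1 : ℂ) := by
    ext c
    simp [Pi.single_apply]
  rw [h, map_sum, dotProduct]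
  exact Finset.sum_congr rfl fun b _ => by rw [dj_holo hf, map_smul, smul_eq_mul, mul_comm]

theorem fderiv_coord {q : ℕ} {g : Cn n → Cn q} {z : Cn n} (hg : DifferentiableAt ℂ g z)
    (k : Fin q) (w : Cn n) : fderiv ℂ (fun y => g y k) z w = fderiv ℂ g z w k :=
  congrArg (fun L : Cn n →L[ℂ] ℂ => L w)
    ((EuclideanSpace.proj k : Cn q →L[ℂ] ℂ).hasFDerivAt.comp z hg.hasFDerivAt).fderiv

/-- a real subspace whose real annihilator is complex is a complex subspace -/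
theorem smul_mem_span {q : ℕ} {S : Set (Cn q)}
    (h : ∀ L : Cn q →L[ℂ] ℂ, (∀ s ∈ S, (L s).re = 0) → ∀ s ∈ S, L s = 0) :
    ∀ t ∈ Submodule.span ℝ S, I • t ∈ Submodule.span ℝ S := by
  intro t ht
  by_contra hc
  obtain ⟨μ, h1, h2⟩ := Submodule.exists_le_ker_of_notMem hc
  let L : Cn q →ₗ[ℂ] ℂ := Module.Dual.extendRCLike (𝕜 := ℂ) μ
  have h3 : ∀ s, (L s).re = μ s := Module.Dual.re_extendRCLike_apply (𝕜 := ℂ) μ
  have h4 := h (LinearMap.toContinuousLinearMap L) fun s hs =>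
    (h3 s).trans (h2 (Submodule.subset_span hs))
  have h5 : Submodule.span ℝ S ≤ LinearMap.ker (L.restrictScalars ℝ) := Submodule.span_le.2 h4
  have h6 : L t = 0 := h5 ht
  exact h1 (by rw [← h3, map_smul, h6, smul_zero, zero_re])

section Loc

variable {E F M : Type} [NormedAddCommGroup E] [NormedSpace ℂ E] [NormedAddCommGroup F]
  [NormedSpace ℂ F] [TopologicalSpace M] [FiniteDimensional ℂ E] [FiniteDimensional ℂ F]
  {c : OpenPartialHomeomorph M E} {G : M → F} {y : M}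

theorem Sub.max' (h : Sub c G y) {S : Set M} (hS : 𝓝[S] y = 𝓝[G ⁻¹' {G y}] y) (hy : y ∈ S)
    {f : M → ℂ} (hf : AnalyticAt ℂ (fun z => f (c.symm z)) (c y)) {u : M → ℝ} {κ : ℝ}
    (hu : ∀ᶠ x in 𝓝[S] y, u x = (f x).re + κ) (hm : ∀ᶠ x in 𝓝[S] y, u x ≤ u y) :
    (∀ᶠ x in 𝓝[S] y, u x = u y) ∧ (∀ᶠ x in 𝓝[S] y, f x = f y) ∧
      ∀ w, fderiv ℂ (fun z => G (c.symm z)) (c y) w = 0 →
        fderiv ℂ (fun z => f (c.symm z)) (c y) w = 0 := by
  have h0 := hu.self_of_nhdsWithin hy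
  obtain ⟨h1, h2⟩ := h.max hf (hS ▸ (hu.and hm).mono fun x hx => by
    have h3 := hx.2
    rw [hx.1, h0] at h3
    exact le_of_add_le_add_right h3)
  rw [← hS] at h1
  exact ⟨(hu.and h1).mono fun x hx => by rw [hx.1, hx.2, h0], h1, h2⟩

end Loc

variable {X : Type} [TopologicalSpace X] [T2Space X] {A : Atl n X} {Γ : Type} [Group Γ]
  {D : MonD A Γ} {N : Subgroup Γ} [N.Normal] {p : ℕ}
  (𝒯 : Tube ((push D (QuotientGroup.mk' N)).atl (Γ ⧸ N)) (Γ ⧸ N) p)
  {x : (push D (QuotientGroup.mk' N)).cov (Γ ⧸ N)} {e y : D.cov Γ} {i : A.ι}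

/-- the fibre through the image of `e` -/
def fb (x : (push D (QuotientGroup.mk' N)).cov (Γ ⧸ N)) (e : D.cov Γ) :
    Set ((push D (QuotientGroup.mk' N)).cov (Γ ⧸ N)) :=
  𝒯.T x ∩ 𝒯.π x ⁻¹' {𝒯.π x (prj D (QuotientGroup.mk' N) e)}

theorem sub (hx : x ∈ 𝒯.M0) (hy : prj D (QuotientGroup.mk' N) y ∈ 𝒯.T x)
    (hi : D.pr y ∈ (A.e i).source) :
    Sub (D.chart i (D.co i y)) (fun y => 𝒯.π x (prj D (QuotientGroup.mk' N) y)) y := by
  have h1 := read_cmap (cpt_push D (QuotientGroup.mk' N)) (𝒯.π x) (i, D.co i y)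
  have h2 : prj D (QuotientGroup.mk' N) y ∈ (((push D (QuotientGroup.mk' N)).atl (Γ ⧸ N)).e
      (i, QuotientGroup.mk' N (D.co i y))).source := ⟨hi, co_prj D _ i y⟩
  refine ⟨D.mem_sheet_co hi, ?_, ?_⟩
  · refine Eq.mpr (congrArg (AnalyticAt ℂ · _) h1) ?_
    refine analyticOnNhd_of_differentiableOn (isOpen_ti (𝒯.T_opn x hx)) (𝒯.π_hol x hx _) _
      ⟨(A.e i).map_source hi, ?_⟩
    exact mem_preimage.2 (mem_of_eq_of_mem (OpenPartialHomeomorph.left_inv _ h2) hy)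
  · refine Eq.mpr (congrArg (fun g => Function.Surjective (fderiv ℂ g _)) h1) ?_
    by_contra hc
    exact (𝒯.π_subm x hx).le ⟨hy, _, h2, hc⟩

theorem nhds_fb (hx : x ∈ 𝒯.M0) (hy : y ∈ prj D (QuotientGroup.mk' N) ⁻¹' fb 𝒯 x e) :
    𝓝[prj D (QuotientGroup.mk' N) ⁻¹' fb 𝒯 x e] y =
      𝓝[(fun y => 𝒯.π x (prj D (QuotientGroup.mk' N) y)) ⁻¹'
        {𝒯.π x (prj D (QuotientGroup.mk' N) y)}] y := by
  rw [fb, preimage_inter, nhdsWithin_inter_of_mem (mem_nhdsWithin_of_mem_nhds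
    (((𝒯.T_opn x hx).preimage (continuous_prj D _)).mem_nhds hy.1)), hy.2]
  rfl

theorem orb (hx : x ∈ 𝒯.M0) (he : prj D (QuotientGroup.mk' N) e ∈ 𝒯.T x) :
    Orb N (prj D (QuotientGroup.mk' N)) (fb 𝒯 x e) where
  cont := continuous_prj D _
  opn := isOpenMap_prj D _
  sj := surjective_prj D _ (QuotientGroup.mk'_surjective N)
  fib a b := by rw [prj_eq_iff, QuotientGroup.ker_mk']
  cpt := by
    have h1 := 𝒯.π_prop x hx _ (mem_ball_zero_iff.1 (𝒯.π_img x hx ▸ mem_image_of_mem _ he))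
    have h2 := ((𝒯.π_cont x hx).mono fun _ h => h.1).preimage_isClosed_of_isClosed h1.isClosed
      (isClosed_singleton (x := 𝒯.π x (prj D (QuotientGroup.mk' N) e)))
    convert h1.of_isClosed_subset h2 inter_subset_left using 1
    exact subset_antisymm (fun z hz => ⟨⟨hz.1, (congrArg norm hz.2).le⟩, hz.2⟩)
      fun z hz => ⟨hz.1.1, hz.2⟩
  lc y hy := by
    obtain ⟨i, hi⟩ := A.cover (D.pr y)
    rw [nhds_fb 𝒯 hx hy]
    exact (sub 𝒯 hx hy.1 hi).conn (nhds_fb 𝒯 hx hy ▸ self_mem_nhdsWithin)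

variable {q : ℕ} {H : Type} [NormedAddCommGroup H] [InnerProductSpace ℂ H] {Φ : Frm D q H}
  (U : Up Φ N)

theorem al_ev (hi : D.pr y ∈ (A.e i).source) :
    (fun z => U.al ((D.chart i (D.co i y)).symm z)) =ᶠ[𝓝 (A.e i (D.pr y))]
      fun z => Φ.a i (D.co i y) ((A.e i).symm z) :=
  mem_of_superset ((A.e i).open_target.mem_nhds ((A.e i).map_source hi)) fun _ hz =>
    (U.al_eq i _ _ ((A.e i).map_target hz)).symm

theorem al_an (hi : D.pr y ∈ (A.e i).source) :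
    AnalyticAt ℂ (fun z => U.al ((D.chart i (D.co i y)).symm z)) (A.e i (D.pr y)) :=
  (analyticOnNhd_of_differentiableOn (isOpen_ti isOpen_univ)
    (differentiableOn_euclidean.2 (Φ.a_hol i (D.co i y))) _
      ⟨(A.e i).map_source hi, mem_univ _⟩).congr (al_ev U hi).symm

theorem al_cont : Continuous U.al := continuous_iff_continuousAt.2 fun y => by
  obtain ⟨i, hi⟩ := A.cover (D.pr y)
  exact ((D.chart i (D.co i y)).symm.continuousAt_iff_continuousAt_comp_right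
    (D.mem_sheet_co hi)).2 (al_an U hi).continuousAt

/-- step (2): `al` is constant on the component -/
theorem al_const (hx : x ∈ 𝒯.M0) (he : prj D (QuotientGroup.mk' N) e ∈ 𝒯.T x) :
    (∀ g ∈ (orb 𝒯 hx he).stab ⟨he, rfl⟩, U.lam g = 0) ∧
      ∀ y ∈ connectedComponentIn (prj D (QuotientGroup.mk' N) ⁻¹' fb 𝒯 x e) e,
        U.al y = U.al e := by
  have h := orb 𝒯 hx he
  have he' : e ∈ prj D (QuotientGroup.mk' N) ⁻¹' fb 𝒯 x e := ⟨he, rfl⟩
  have key : ∀ L : Cn q →L[ℂ] ℂ, (∀ g ∈ h.stab he', (L (U.lam g)).re = 0) →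
      ∀ y ∈ connectedComponentIn (prj D (QuotientGroup.mk' N) ⁻¹' fb 𝒯 x e) e,
        L (U.al y) = L (U.al e) := by
    intro L hL
    have h1 : ∀ y ∈ connectedComponentIn (prj D (QuotientGroup.mk' N) ⁻¹' fb 𝒯 x e) e,
        (∀ᶠ z in 𝓝[prj D (QuotientGroup.mk' N) ⁻¹' fb 𝒯 x e] y,
          (L (U.al z)).re ≤ (L (U.al y)).re) →
        ∀ᶠ z in 𝓝[prj D (QuotientGroup.mk' N) ⁻¹' fb 𝒯 x e] y, L (U.al z) = L (U.al y) := by
      intro y hy hm
      obtain ⟨i, hi⟩ := A.cover (D.pr y)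
      have hy' := connectedComponentIn_subset _ _ hy
      rw [nhds_fb 𝒯 hx hy'] at hm ⊢
      exact ((sub 𝒯 hx hy'.1 hi).max (f := fun z => L (U.al z))
        ((L.analyticAt _).comp (al_an U hi)) hm).1
    have h2 := fun y hy => h.const he' (y := y) (u := fun z => (L (U.al z)).re)
      (continuous_re.comp (L.continuous.comp (al_cont U))).continuousOn
      (fun g hg y _ => by rw [U.al_N g hg.1, map_add, add_re, hL g hg, add_zero])
      (fun y hy hm => (h1 y hy hm).mono fun z hz => congrArg re hz) hy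
    refine fun y hy => h.const_of_loc he' (f := fun z => L (U.al z)) (fun y hy => h1 y hy ?_) hy
    rw [← h.nhds_eq hy]
    exact eventually_nhdsWithin_of_forall fun z hz => ((h2 z hz).trans (h2 y hy).symm).le
  have h3 : ∀ g ∈ h.stab he', U.lam g = 0 := by
    refine U.sub _ (fun g hg => hg.1) (smul_mem_span fun L hL => ?_)
    rintro _ ⟨g, hg, rfl⟩
    have h4 := key L (fun g hg => hL _ ⟨g, hg, rfl⟩) _ hg.2
    rwa [U.al_N g hg.1, map_add, add_eq_left] at h4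
  refine ⟨h3, fun y hy => ?_⟩
  ext k
  exact key (EuclideanSpace.proj k) (fun g hg => by rw [h3 g hg, map_zero, zero_re]) y hy

/-- **ETA** -/
theorem etaStmt : EtaStmt := by
  intro n X _ _ A Γ _ D N _ q H _ _ Φ U p 𝒯 x hx e heT he i hi w hw
  have h := orb 𝒯 hx he
  have he' : e ∈ prj D (QuotientGroup.mk' N) ⁻¹' fb 𝒯 x e := ⟨he, rfl⟩
  have heY := mem_connectedComponentIn he'
  obtain ⟨h1, h2⟩ := al_const 𝒯 U hx he
  have hs := sub 𝒯 hx he hi
  have hw' : fderiv ℂ (fun z => 𝒯.π x (prj D (QuotientGroup.mk' N)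
      ((D.chart i (D.co i e)).symm z))) (D.chart i (D.co i e) e) (WithLp.toLp 2 w) = 0 := by
    ext k
    rw [← fderiv_coord hs.an.differentiableAt]
    refine (dot_eq ((EuclideanSpace.proj k : Cn p →L[ℂ] ℂ).differentiableAt.comp _
      hs.an.differentiableAt) w).symm.trans (Eq.trans ?_ (hw k))
    refine congrArg (· ⬝ᵥ w) (funext fun b => congrArg (dj b · _) (funext fun z => ?_))
    exact congrArg (fun t => 𝒯.π x t k) (prj_pt D _ _ _ _)
  have h3 : ∀ k, dV A i (Φ.a i (D.co i e)) (D.pr e) k ⬝ᵥ w = 0 := fun k => by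
    have h4 : AnalyticAt ℂ (fun z => U.al ((D.chart i (D.co i e)).symm z) k) (A.e i (D.pr e)) :=
      ((EuclideanSpace.proj k : Cn q →L[ℂ] ℂ).analyticAt _).comp (al_an U hi)
    have h5 := (hs.max (f := fun z => U.al z k) h4 (by
      rw [← nhds_fb 𝒯 hx he', ← h.nhds_eq heY]
      exact eventually_nhdsWithin_of_forall fun z hz => by rw [h2 z hz])).2 _ hw'
    have h6 : (fun z => U.al ((D.chart i (D.co i e)).symm z) k) =ᶠ[𝓝 (A.e i (D.pr e))]
        fun z => Φ.a i (D.co i e) ((A.e i).symm z) k := (al_ev U hi).mono fun z hz =>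
      congrArg (fun t : Cn q => t k) hz
    exact (dot_eq (h4.congr h6).differentiableAt w).trans (h6.fderiv_eq (𝕜 := ℂ) ▸ h5)
  have hT := U.T_sat e heT _ isPreconnected_connectedComponentIn heY h2
  refine ⟨h3, funext fun J => U.Ξ_sep _ fun ξ hξ => ?_⟩
  obtain ⟨u, h4, h5, h6⟩ := U.prim ξ hξ
  have key : ∀ y ∈ connectedComponentIn (prj D (QuotientGroup.mk' N) ⁻¹' fb 𝒯 x e) e,
      ∀ i, D.pr y ∈ (A.e i).source → ∀ (f : X → ℂ) (c : Cn q → ℝ),
      (∀ᶠ t in 𝓝 (D.pr y), u (D.pt i (D.co i y) t) = (f t).re + c (Φ.a i (D.co i y) t)) →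
      ∀ᶠ z in 𝓝[prj D (QuotientGroup.mk' N) ⁻¹' fb 𝒯 x e] y,
        u z = (f (D.pr z)).re + c (U.al e) := by
    intro y hy i hi f c hf
    rw [← h.nhds_eq hy]
    filter_upwards [self_mem_nhdsWithin, mem_nhdsWithin_of_mem_nhds
      ((D.continuous_pr.tendsto y).eventually hf), mem_nhdsWithin_of_mem_nhds (D.co_eventually hi)]
      with z hz h7 h8
    rw [← h8.2, U.al_eq i _ _ h8.1, D.pt_co h8.1, h2 z hz] at h7
    exact h7
  have h7 := fun y hy => h.const he' (y := y) (h4.mono hT)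
    (fun g hg y hy => h5 g hg.1 (h1 g hg) y (hT hy) (hT (h.smul_mem hg.1 heY hg.2 hy)))
    (fun y hy hm => by
      obtain ⟨i, hi⟩ := A.cover (D.pr y)
      obtain ⟨f, c, κ, h8, h9⟩ := h6 y (hT hy) i hi
      have hy' := connectedComponentIn_subset _ _ hy
      exact ((sub 𝒯 hx hy'.1 hi).max' (nhds_fb 𝒯 hx hy') hy' (f := fun z => f (D.pr z)) (h8 i hi)
        (key y hy i hi f c (h9.mono fun _ h => h.1)) hm).1) hy
  obtain ⟨f, c, κ, h8, h9⟩ := h6 e heT i hi
  have h10 := (hs.max' (nhds_fb 𝒯 hx he') he' (f := fun z => f (D.pr z)) (h8 i hi)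
    (key e heY i hi f c (h9.mono fun _ h => h.1)) (by
      rw [← h.nhds_eq heY]
      exact eventually_nhdsWithin_of_forall fun z hz => (h7 z hz).le)).2.2 _ hw'
  have h11 : ∑ b, dl A i b f (D.pr e) * w b = 0 :=
    (dot_eq (h8 i hi).differentiableAt w).trans h10
  have h12 : ⟪ξ, mv (iW w) (Φ.S i (D.co i e) (D.pr e)) J⟫_ℂ =
      (iW w *ᵥ fun I => ⟪ξ, Φ.S i (D.co i e) (D.pr e) I⟫_ℂ) J := by
    simp only [mv, inner_sum, inner_smul_right, Matrix.mulVec, dotProduct]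
  rw [h12, h9.self_of_nhds.2, Matrix.mulVec_smul, Plk.iW_eW_mulVec, h11, dW_eq,
    Plk.iW_wdg_of_ker h3]
  simp

end

end Crest.Agent.X261.Gauss.Eta
end

-- ▼ part X261/Gauss/Dsc
section

/-!
# Row 261, GAUSS (helper28), file `Dsc`: descent of the data to the quotient cover

`dn U : Frm (push D (mk' N)) q H`; `dn_noFix`, `dn_eta`, `desc`.
-/

set_option autoImplicit false
set_option linter.unusedSectionVars false
set_option linter.dupNamespace false

open Set Filter Topology Complex Matrix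
open scoped InnerProductSpace

namespace Crest.Agent.X261.Gauss.Dsc

open Crest.Agent.R275.Geo Crest.Agent.R275.Core144
open Crest.Agent.R275.OmT75 (dl dj)
open Crest.Agent.R273.UCov_914
open Crest.Agent.X261.Top (Tube dW)
open Crest.Agent.X261.Cov.A

noncomputable section

variable {n : ℕ} {X : Type} [TopologicalSpace X] {A : Atl n X} {Γ : Type} [Group Γ]
  {D : MonD A Γ} {N : Subgroup Γ} [N.Normal] {q : ℕ} {H : Type} [NormedAddCommGroup H]
  [InnerProductSpace ℂ H] {Φ : Frm D q H} (U : Up Φ N) {i : A.ι} {v v' : Γ} {x : X}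

theorem dV_congr {f g : X → Cn q} {l : Cn q} (h : ∀ y ∈ (A.e i).source, f y = g y + l)
    (hx : x ∈ (A.e i).source) : dV A i f x = dV A i g x := by
  funext k b
  have h1 : (fun z => f ((A.e i).symm z) k) =ᶠ[𝓝 (A.e i x)]
      fun z => g ((A.e i).symm z) k + l k :=
    mem_of_superset ((A.e i).open_target.mem_nhds ((A.e i).map_source hx)) fun z hz =>
      congrArg (fun t : Cn q => t k) (h _ ((A.e i).map_target hz))
  simp only [dV, dl, dj]
  rw [h1.fderiv_eq, fderiv_add_const]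

theorem exists_eq (h : (v : Γ ⧸ N) = v') : ∃ g ∈ N, v = v' * g⁻¹ :=
  ⟨v⁻¹ * v', QuotientGroup.eq.1 h, by group⟩

include U in
theorem a_eq (h : (v : Γ ⧸ N) = v') (i : A.ι) :
    ∃ l : Cn q, ∀ y ∈ (A.e i).source, Φ.a i v y = Φ.a i v' y + l := by
  obtain ⟨g, hg, rfl⟩ := exists_eq h
  exact ⟨U.lam g, fun y hy => by
    rw [U.al_eq i _ y hy, U.al_eq i _ y hy, ← D.deck_pt, U.al_N g hg]⟩

include U in
theorem S_eq (h : (v : Γ ⧸ N) = v') (hx : x ∈ (A.e i).source) : Φ.S i v x = Φ.S i v' x := by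
  obtain ⟨g, hg, rfl⟩ := exists_eq h
  funext I
  rw [Φ.S_eqv g i v' x hx, U.ρ_N g hg]
  rfl

include U in
theorem dV_eq (h : (v : Γ ⧸ N) = v') (hx : x ∈ (A.e i).source) :
    dV A i (Φ.a i v) x = dV A i (Φ.a i v') x :=
  (a_eq U h i).elim fun _ hl => dV_congr hl hx

/-- the data on the quotient cover -/
def dn : Frm (push D (QuotientGroup.mk' N)) q H where
  a i v := Φ.a i v.out
  a_hol i v := Φ.a_hol i v.out
  a_tr i j v x hx := by
    obtain ⟨l, hl⟩ := Φ.a_tr i j v.out x hx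
    obtain ⟨l', hl'⟩ := a_eq U (v := D.c i j x * v.out)
      (v' := ((push D (QuotientGroup.mk' N)).c i j x * v).out) (by simp) j
    exact ⟨l' + l, fun y hy => by rw [hl y hy, hl' y hy.2, add_assoc]⟩
  a_eqv g := by
    obtain ⟨L, h1, h2⟩ := Φ.a_eqv g.out
    refine ⟨L, h1, fun i v => ?_⟩
    obtain ⟨l, hl⟩ := h2 i v.out
    obtain ⟨l', hl'⟩ := a_eq U (v := (v * g⁻¹).out) (v' := v.out * g.out⁻¹) (by simp) i
    exact ⟨fun k => l k + l' k, fun x hx k => by
      rw [hl' x hx, PiLp.add_apply, hl x hx, add_assoc]⟩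
  tau_ne := by
    obtain ⟨i, v, x, hx, h⟩ := Φ.tau_ne
    exact ⟨i, v, x, hx, by rwa [dW_eq, dV_eq U (v' := v) (by simp) hx]⟩
  S i v := Φ.S i v.out
  S_hol i v := Φ.S_hol i v.out
  S_tr i j v x hx := by
    rw [Φ.S_tr i j v.out x hx, S_eq U (v := D.c i j x * v.out)
      (v' := ((push D (QuotientGroup.mk' N)).c i j x * v).out) (by simp) hx.2]
  ρ := QuotientGroup.lift N Φ.ρ U.ρ_N
  S_eqv g i v x hx I := by
    rw [S_eq U (v' := v.out * g.out⁻¹) (by simp) hx, Φ.S_eqv g.out i v.out x hx,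
      ← QuotientGroup.lift_mk' N U.ρ_N g.out, QuotientGroup.out_eq']
  deg i v := Φ.deg i v.out
  hor i v := Φ.hor i v.out
  closed i v := Φ.closed i v.out
  S_ne := by
    obtain ⟨i, v, x, hx, h⟩ := Φ.S_ne
    exact ⟨i, v, x, hx, by rwa [S_eq U (v' := v) (by simp) hx]⟩
  bd i v := Φ.bd i v.out

theorem dn_S (v : Γ) (hx : x ∈ (A.e i).source) : (dn U).S i v x = Φ.S i v x :=
  S_eq U (QuotientGroup.out_eq' _) hx

theorem dn_dV (v : Γ) (hx : x ∈ (A.e i).source) :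
    dV A i ((dn U).a i v) x = dV A i (Φ.a i v) x := dV_eq U (QuotientGroup.out_eq' _) hx


theorem dn_noFix {M : Subgroup Γ} (h : Φ.NoFix M) :
    (dn U).NoFix (M.map (QuotientGroup.mk' N)) := by
  intro K hK ξ hξ i v x hx I
  refine h (K.comap (QuotientGroup.mk' N) ⊓ M) ⟨inf_le_right, ?_⟩ ξ (fun g hg => hξ _ hg.1)
    i v.out x hx I
  rw [Subgroup.inf_relIndex_right, Subgroup.relIndex_comap]
  exact hK.2

theorem dn_eta [T2Space X] {p : ℕ}
    (𝒯 : Tube ((push D (QuotientGroup.mk' N)).atl (Γ ⧸ N)) (Γ ⧸ N) p) : (dn U).Eta 𝒯 := by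
  refine ⟨prj D _ '' U.T, isOpenMap_prj D _ _ U.T_opn, U.T_ne.image _, ?_⟩
  rintro x hx _ hy ⟨e, he, rfl⟩ i hi w hw
  rw [co_prj] at hw
  have h := Eta.etaStmt n X A Γ D N q H Φ U p 𝒯 x hx e he hy i hi w hw
  unfold Frm.Ker
  rw [co_prj, pr_prj, QuotientGroup.mk'_apply, dn_S U (x := D.pr e) _ hi,
    dn_dV U (x := D.pr e) _ hi]
  exact h

/-- **DESC** -/
theorem desc [T2Space X] (U : Up Φ N) {M : Subgroup Γ} (h : Φ.NoFix M) :
    ∃ Φ' : Frm (push D (QuotientGroup.mk' N)) q H, Φ'.NoFix (M.map (QuotientGroup.mk' N)) ∧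
      ∀ (p : ℕ) (𝒯 : Tube ((push D (QuotientGroup.mk' N)).atl (Γ ⧸ N)) (Γ ⧸ N) p), Φ'.Eta 𝒯 :=
  ⟨dn U, dn_noFix U h, fun _ 𝒯 => dn_eta U 𝒯⟩

end

end Crest.Agent.X261.Gauss.Dsc
end

-- ▼ part X261/Gauss/Main

/-!
# Row 261, GAUSS (helper56), file `Main`: the theorem of the package

* `Frm.le_of_shell`, `Frm.le_of_eta` : `p = q + r`;
* `Frm.exists_gm2` : the family of lines given by the section `η^r ∧ τ / e` of `L`;
* `core`, `gauss_of`, `gauss_of_eqv`.
-/

set_option autoImplicit false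
set_option linter.unusedSectionVars false
set_option linter.dupNamespace false

open Set Filter Topology MeasureTheory Module Matrix
open scoped ENNReal InnerProductSpace

namespace Crest.Agent.X261.Gauss

open Crest.Agent.R275.Geo Crest.Agent.R275.Core144 Crest.Agent.R273.UCov_914
open Crest.Agent.R273.Defs_333
open Crest.Agent.R275.OmT75 (dl dj)
open Crest.Agent.R273.Fock_243 (FI Gam eW ep)
open Crest.Agent.R189 (Amen)
open Crest.Agent.X261.Plk (R1 fn wf snf Pc wc pmc ParV Psi)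
open Crest.Agent.X261.Top (Tube Fol Pol dW)
open Crest.Agent.X261.Ans (HA)
open Crest.Agent.X261.Eqv (AE)

noncomputable section

variable {n : ℕ} {X : Type} [TopologicalSpace X] {A : Atl n X} {G : Type} [Group G]
  {D : MonD A G} {q r p : ℕ} {H : Type} [NormedAddCommGroup H] [InnerProductSpace ℂ H]

namespace Frm

variable (Φ : Frm D q H)

include Φ in
theorem one_le : 1 ≤ n := by
  obtain ⟨i, v, x, hx, h⟩ := Φ.S_ne
  obtain ⟨I, hI⟩ := Function.ne_iff.1 h
  have h1 : I.card = q + 1 := by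
    by_contra h1
    exact hI (Φ.deg i v x hx I h1)
  have h2 := I.card_le_univ
  rw [Fintype.card_fin] at h2
  omega

/-- generic points -/
def Gen (r : ℕ) (y : D.cov G) : Prop :=
  ∀ i, D.pr y ∈ (A.e i).source → dW A i (Φ.a i (D.co i y)) (D.pr y) ≠ 0 ∧
    finrank ℂ (Submodule.span ℂ (range (Φ.S i (D.co i y) (D.pr y)))) = r

theorem ae_tau [ConnectedSpace (D.cov G)] : AE volume (HA.of (D.atl G)) fun y =>
    ∀ i, D.pr y ∈ (A.e i).source → dW A i (Φ.a i (D.co i y)) (D.pr y) ≠ 0 := by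
  have h : ∀ i v, ∀ x ∈ (A.e i).source, D.pt i v x ∈
      {y | ∃ i, D.pr y ∈ (A.e i).source ∧ dW A i (Φ.a i (D.co i y)) (D.pr y) = 0} ↔
      dW A i (Φ.a i v) x = 0 := by
    refine fun i v x hx => ⟨fun ⟨j, hj, h0⟩ => ?_, fun h0 => ⟨i, hx, by rwa [D.co_pt v hx]⟩⟩
    rw [D.co_pt' v hx hj, smul_eq_mul, D.pr_pt] at h0
    rw [Plk.Fr.tau_tr Φ i j v ⟨hx, hj⟩, h0, mulVec_zero]
  have h1 := an_zero D (f := fun i v x => dW A i (Φ.a i v) x) (fun i v I z hz =>
    (Plk.Fr.an_dW Φ i v I hz).differentiableAt.differentiableWithinAt) h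
  refine (Eqv.ae_of_cov (h1.cov_of_ne fun h2 => ?_)).mono fun y hy i hi h0 => hy ⟨i, hi, h0⟩
  obtain ⟨i, v, x, hx, h0⟩ := Φ.tau_ne
  exact h0 ((h i v x hx).1 (eq_univ_iff_forall.1 h2 _))

variable {Φ} {Γ : GM D (Fin r → FI n) (Pc H r)}

theorem rk_of_ne (hr : Φ.Rk r) (hΓ : ∀ i v x, Γ.b i v x = pl r (Φ.S i v x)) {y : D.cov G}
    (h : Γ.bb y ≠ 0) {i : A.ι} (hi : D.pr y ∈ (A.e i).source) :
    finrank ℂ (Submodule.span ℂ (range (Φ.S i (D.co i y) (D.pr y)))) = r := by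
  rw [← D.pt_co hi, Ne, Γ.bb_eq_zero hi, hΓ] at h
  obtain ⟨I, hI⟩ := Function.ne_iff.1 h
  exact (span_of_pl (hr.le _ _ _ hi) hI).2

theorem ae_gen [ConnectedSpace (D.cov G)] (hr : Φ.Rk r)
    (hΓ : ∀ i v x, Γ.b i v x = pl r (Φ.S i v x)) : AE volume (HA.of (D.atl G)) (Φ.Gen r) :=
  (Φ.ae_tau.and Γ.ae_ne).mono fun _ hy i hi => ⟨hy.1 i hi, rk_of_ne hr hΓ hy.2 hi⟩

theorem Gen.deck {y : D.cov G} (h : Φ.Gen r y) (g : G) : Φ.Gen r (g • y) := by
  intro i hi
  rw [D.pr_deck] at hi ⊢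
  rw [D.co_deck]
  obtain ⟨h1, h2⟩ := h i hi
  obtain ⟨L, hL, hL'⟩ := Φ.a_eqv g
  obtain ⟨l, hl⟩ := hL' i (D.co i y)
  constructor
  · rw [dW_eq, Plk.Fr.th_lin Φ i hl hi, Plk.wdg_lin]
    exact smul_ne_zero (norm_ne_zero_iff.1 (hL ▸ one_ne_zero)) h1
  · rw [show Φ.S i (D.co i y * g⁻¹) (D.pr y) = (Φ.ρ g).toLinearEquiv ∘ Φ.S i (D.co i y) (D.pr y) from
      funext (Φ.S_eqv g i _ _ hi), range_comp, ← LinearEquiv.coe_coe, ← Submodule.map_span,
      LinearEquiv.finrank_map_eq, h2]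

/-- the characteristic leaves are inside the compact fibres -/
theorem le_of_shell [CompleteSpace H] (hr : Φ.Rk r) (hΓ : ∀ i v x, Γ.b i v x = pl r (Φ.S i v x))
    (𝒯 : Tube (D.atl G) G p) {y : D.cov G} (hy : y ∈ 𝒯.M0) (hg : Φ.Gen r y)
    (h : ∀ᶠ x in 𝓝 y, snf (Γ.bb x) (Γ.bb y) = 0 → 𝒯.π y x = 0) : p ≤ q + r := by
  obtain ⟨i, hi⟩ := A.cover (D.pr y)
  have hz := (A.e i).map_source hi
  have ht := (A.e i).open_target.mem_nhds hz
  obtain ⟨h1, h2⟩ := hg i hi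
  have hq : y ∈ ((D.atl G).e (i, D.co i y)).source := ⟨hi, rfl⟩
  have hd : DifferentiableAt ℂ (fun z => 𝒯.π y (D.pt i (D.co i y) ((A.e i).symm z)))
      (A.e i (D.pr y)) := (𝒯.π_hol y hy (i, D.co i y)).differentiableAt
    ((isOpen_ti (𝒯.T_opn y hy)).mem_nhds (Rn93.mem_ti hq (𝒯.T_mem y hy)))
  have hd' : ∀ k, DifferentiableAt ℂ (fun z => 𝒯.π y (D.pt i (D.co i y) ((A.e i).symm z)) k)
      (A.e i (D.pr y)) := fun k =>
    (EuclideanSpace.proj k : Cn p →L[ℂ] ℂ).differentiableAt.comp _ hd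
  have hp : (Top.wdg fun k b => dj b
      (fun z => 𝒯.π y (D.pt i (D.co i y) ((A.e i).symm z)) k) (A.e i (D.pr y))) ≠ 0 := by
    have := Rn93.dW_ne 𝒯 hy (𝒯.T_mem y hy) hq
    unfold dW dl at this
    exact this
  have hcl : ∀ᶠ z in 𝓝 (A.e i (D.pr y)), ∑ b, Plk.mv (eW (ep b))
      (fun I => dj b (fun w => Φ.S i (D.co i y) ((A.e i).symm w) I) z) = 0 := by
    filter_upwards [ht] with z hz
    have := Φ.closed i (D.co i y) _ ((A.e i).map_target hz)
    unfold dl at this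
    rwa [(A.e i).right_inv hz] at this
  have hf : ∀ᶠ z in 𝓝 (A.e i (D.pr y)),
      Submodule.span ℂ (range (Φ.S i (D.co i y) ((A.e i).symm z))) =
        Submodule.span ℂ (range (Φ.S i (D.co i y) ((A.e i).symm (A.e i (D.pr y))))) →
      ∀ k, 𝒯.π y (D.pt i (D.co i y) ((A.e i).symm z)) k =
        𝒯.π y (D.pt i (D.co i y) ((A.e i).symm (A.e i (D.pr y)))) k := by
    have hc : Tendsto (fun z => D.pt i (D.co i y) ((A.e i).symm z)) (𝓝 (A.e i (D.pr y))) (𝓝 y) :=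
      ((D.atl G).e (i, D.co i y)).tendsto_symm hq
    filter_upwards [hc.eventually h, ht] with z h3 h4 h5 k
    rw [(A.e i).left_inv hi] at h5 ⊢
    have h6 := Γ.snf_pt (v := D.co i y) (v' := D.co i y) ((A.e i).map_target h4) hi
    rw [D.pt_co hi, hΓ, hΓ, snf_pl_of_le h2 fun I => h5 ▸ Submodule.subset_span ⟨I, rfl⟩] at h6
    rw [D.pt_co hi, 𝒯.π_self y hy, h3 h6]
  exact Plk.le_of_fib (th := fun z => dV A i (Φ.a i (D.co i y)) ((A.e i).symm z))
    (S := fun z => Φ.S i (D.co i y) ((A.e i).symm z)) (z := A.e i (D.pr y))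
    (f := fun k z => 𝒯.π y (D.pt i (D.co i y) ((A.e i).symm z)) k)
    (mem_of_superset ht fun z hz k j => (Plk.Fr.an_th Φ i _ k j hz).differentiableAt)
    (mem_of_superset ht fun z hz I => Plk.Fr.diff_S Φ i _ I hz)
    (mem_of_superset ht fun z hz => Plk.Fr.hor Φ i _ ((A.e i).map_target hz)) hcl
    (mem_of_superset ht fun z hz => hr.le _ _ _ ((A.e i).map_target hz))
    (by rwa [(A.e i).left_inv hi]) (by rwa [(A.e i).left_inv hi]) hd' hp hf

theorem le_of_eta {𝒯 : Tube (D.atl G) G p} (hE : Φ.Eta 𝒯)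
    (hg : AE volume (HA.of (D.atl G)) (Φ.Gen r)) : q + r ≤ p := by
  obtain ⟨O, hO, hne, h⟩ := hE
  obtain ⟨y₀, h1, h2⟩ := (Ans.Brg.tube_dense 𝒯).exists_mem_open hO hne
  obtain ⟨y, ⟨h3, h4⟩, h5⟩ := hg.exists_mem ((𝒯.opn.inter hO).mem_nhds ⟨h1, h2⟩)
  obtain ⟨i, hi⟩ := A.cover (D.pr y)
  exact (Plk.Fr.hor Φ i _ hi).le_of_ker (h5 i hi).1 (h5 i hi).2
    (π := dV (D.atl G) (i, D.co i y) (𝒯.π y) y)
    fun w hw => h y h3 y (𝒯.T_mem y h3) h4 i hi w hw

theorem par_of_eta {F : Fol D p} (hE : Φ.Eta F.T) (hp : p = q + r) :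
    ∃ i v, ∃ x ∈ (A.e i).source, ∀ᶠ y in 𝓝 x,
      ParV (F.e i y) (Plk.Fr.sp Φ (wc H r).toAlternatingMap i v y) := by
  obtain ⟨O, hO, hne, h⟩ := hE
  obtain ⟨y₀, h1, h2⟩ := (Ans.Brg.tube_dense F.T).exists_mem_open hO hne
  obtain ⟨i, hi⟩ := A.cover (D.pr y₀)
  refine ⟨i, D.co i y₀, D.pr y₀, hi, ?_⟩
  have hc : Tendsto (D.pt i (D.co i y₀)) (𝓝 (D.pr y₀)) (𝓝 y₀) := by
    have := (D.continuousOn_pt i (D.co i y₀)).continuousAt ((A.e i).open_source.mem_nhds hi)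
    rwa [ContinuousAt, D.pt_co hi] at this
  filter_upwards [hc.eventually (hO.mem_nhds h2), hc.eventually
    ((F.T.T_opn y₀ h1).mem_nhds (F.T.T_mem y₀ h1)), (A.e i).open_source.mem_nhds hi]
    with x h3 h4 h5
  have h6 := h y₀ h1 _ h4 h3 i h5
  unfold Frm.Ker at h6
  rw [D.co_pt _ h5, D.pr_pt] at h6
  obtain ⟨Ψ, hΨ⟩ := (Plk.Fr.hor Φ i (D.co i y₀) h5).par (wc H r).toAlternatingMap hp
    (π := dV (D.atl G) (i, D.co i y₀) (F.T.π y₀) (D.pt i (D.co i y₀) x)) h6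
  obtain ⟨c, -, hc⟩ := F.gen y₀ h1 (i, D.co i y₀) _ h4 (D.pt_mem_sheet _ h5)
  intro I I'
  change F.e i x = c • Top.wdg
    (dV (D.atl G) (i, D.co i y₀) (F.T.π y₀) (D.pt i (D.co i y₀) x)) at hc
  unfold Plk.Fr.sp
  rw [hΨ, hΨ, hc]
  simp only [Pi.smul_apply, smul_eq_mul, smul_smul]
  congr 1
  ring

variable {e : A.ι → X → FI n → ℂ} {Ψ : A.ι → G → X → Pc H r}

theorem psi_eq (h : Psi Φ (wc H r) e Ψ) {y : D.cov G} (hy : Φ.Gen r y) {i : A.ι}
    (hi : D.pr y ∈ (A.e i).source) : ∃ (β : Fin r → H) (c : ℂ), c ≠ 0 ∧ wc H r β ≠ 0 ∧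
      Submodule.span ℂ (range β) = Submodule.span ℂ (range (Φ.S i (D.co i y) (D.pr y))) ∧
      Ψ i (D.co i y) (D.pr y) = c • wc H r β := by
  obtain ⟨h1, h2⟩ := hy i hi
  obtain ⟨β, hβ, hs⟩ := Plk.exists_basis h2
  obtain ⟨c, hc, h3⟩ := (Plk.Fr.hor Φ i _ hi).rank_one (wc H r).toAlternatingMap h1 hβ hs
  obtain ⟨I, hI⟩ := Function.ne_iff.1 hc
  have h4 : e i (D.pr y) I • Ψ i (D.co i y) (D.pr y) = c I • wc H r β :=
    (h.eq i _ _ hi h1 I).symm.trans (h3 I)
  have h5 := Plk.wc_ne_zero_iff.2 hβ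
  have h6 : e i (D.pr y) I ≠ 0 := fun h0 => smul_ne_zero hI h5 (by rw [← h4, h0, zero_smul])
  exact ⟨β, (e i (D.pr y) I)⁻¹ * c I, mul_ne_zero (inv_ne_zero h6) hI, h5, hs, by
    rw [mul_smul, ← h4, inv_smul_smul₀ h6]⟩

theorem norm_fn_unit {W : Type*} [NormedAddCommGroup W] [InnerProductSpace ℂ W] (a : W) :
    ‖fn fun _ : Unit => a‖ ^ 2 = ‖a‖ ^ 2 := by
  rw [Plk.norm_fn_sq]; simp

theorem cont_w {L : LB A} (h : HM L) {i : A.ι} {x : X} (hx : x ∈ (A.e i).source) :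
    ContinuousAt (h.w i) x :=
  Plk.Fr.cont_of_an hx ((h.sm i).continuousOn.continuousAt
    ((A.e i).open_target.mem_nhds ((A.e i).map_source hx)))

/-- the second family of lines -/
theorem exists_gm2 [CompactSpace X] [T2Space X] [Finite A.ι] [ConnectedSpace (D.cov G)]
    {F : Fol D p} (h : Psi Φ (wc H r) F.e Ψ) (hg : AE volume (HA.of (D.atl G)) (Φ.Gen r))
    (m : HM F.L) : ∃ (Γ : GM D Unit (Pc H r)) (ε : ℂ), ε ≠ 0 ∧
      (∀ i v x, Γ.b i v x = fun _ => ε • Ψ i v x) ∧ (∀ i x, Γ.wt i x = -Real.log (m.w i x)) ∧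
      ∀ y, Γ.nr y ≤ 1 := by
  have htr : ∀ i j v, ∀ x ∈ (A.e i).source ∩ (A.e j).source,
      ‖Ψ i v x‖ ^ 2 * m.w i x = ‖Ψ j (D.c i j x * v) x‖ ^ 2 * m.w j x := fun i j v x hx => by
    rw [h.tr F.tom F.cop i j v hx, m.tr i j x hx, norm_smul]
    ring
  have hinv : ∀ i v, ∀ x ∈ (A.e i).source, ‖Ψ i v x‖ = ‖Ψ i 1 x‖ := fun i v x hx => by
    obtain ⟨c, hc, h1⟩ := h.eqv F.cop v⁻¹
    have := h1 i 1 x hx
    rw [inv_inv, one_mul] at this
    rw [this, norm_smul, hc, one_mul, LinearIsometry.norm_map]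
  obtain ⟨K, hK1, hK2, hK3⟩ := MonD.exists_shrink A
  have hb : ∀ i, ∃ M : ℝ, ∀ x ∈ K i, ‖Ψ i 1 x‖ ^ 2 * m.w i x ≤ M := fun i => by
    obtain ⟨M, hM⟩ := (hK1 i).bddAbove_image (f := fun x => ‖Ψ i 1 x‖ ^ 2 * m.w i x) fun x hx =>
      (((h.cont i 1 (hK2 i hx)).norm.pow 2).mul (cont_w m (hK2 i hx))).continuousWithinAt
    exact ⟨M, fun x hx => hM ⟨x, hx, rfl⟩⟩
  choose M hM using hb
  obtain ⟨M', hM'⟩ := (finite_range M).bddAbove
  have h1 : (1 : ℝ) ≤ max M' 1 := le_max_right _ _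
  set ε : ℂ := (((max M' 1)⁻¹ : ℝ) : ℂ) with hε
  have hεn : ‖ε‖ = (max M' 1)⁻¹ := by
    rw [hε, Complex.norm_real, Real.norm_of_nonneg (by positivity)]
  have hε0 : ε ≠ 0 := norm_ne_zero_iff.1 (by rw [hεn]; positivity)
  have hw : ∀ i, ∀ x ∈ (A.e i).source, Real.exp (- -Real.log (m.w i x)) = m.w i x :=
    fun i x hx => by rw [neg_neg, Real.exp_log (m.pos i x hx)]
  refine ⟨⟨fun i v x _ => ε • Ψ i v x, fun i v _ => (h.hol i v).differentiableOn.const_smul ε,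
    fun i v x _ => ⟨_, fun _ => ⟨ε, rfl⟩⟩, fun i j v x hx _ => ?_, fun g => ?_, ?_,
    fun i x => -Real.log (m.w i x), fun i x hx => ?_, fun i j v x hx => ?_⟩, ε, hε0,
    fun _ _ _ => rfl, fun _ _ => rfl, fun y => ?_⟩
  · rw [h.tr F.tom F.cop i j v hx, smul_comm]
    exact Submodule.smul_mem _ _ (Submodule.subset_span ⟨(), rfl⟩)
  · obtain ⟨c, hc, h2⟩ := h.eqv F.cop g
    refine ⟨⟨c • (pmc (Φ.ρ g).toLinearIsometry r).toLinearMap, fun a => ?_⟩, fun i v x hx _ => ?_⟩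
    · change ‖c • pmc (Φ.ρ g).toLinearIsometry r a‖ = _
      rw [norm_smul, hc, one_mul, LinearIsometry.norm_map]
    · change _ = c • pmc (Φ.ρ g).toLinearIsometry r _
      rw [h2 i v x hx, map_smul, smul_comm]
  · obtain ⟨y, -, hy⟩ := hg.exists_mem (x := Classical.arbitrary _) univ_mem
    obtain ⟨i, hi⟩ := A.cover (D.pr y)
    obtain ⟨β, c, hc, hβ, -, h2⟩ := psi_eq h hy hi
    refine ⟨i, D.co i y, D.pr y, hi, fun h0 => ?_⟩
    have := congrFun h0 ()
    rw [h2] at this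
    exact smul_ne_zero hε0 (smul_ne_zero hc hβ) this
  · have h2 := ((cont_w m hx).log (m.pos i x hx).ne').neg.abs
    exact ⟨_, (h2.eventually (gt_mem_nhds (lt_add_one _))).mono fun y hy => hy.le⟩
  · rw [norm_fn_unit, norm_fn_unit, hw i x hx.1, hw j x hx.2, norm_smul, norm_smul, mul_pow, mul_pow,
      mul_assoc, mul_assoc, htr i j v x hx]
  · obtain ⟨i, hi⟩ := mem_iUnion.1 (eq_univ_iff_forall.1 hK3 (D.pr y))
    rw [← D.pt_co (hK2 i hi), GM.nr_pt _ (hK2 i hi)]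
    change ‖fn fun _ : Unit => ε • Ψ i (D.co i y) (D.pr y)‖ ^ 2 *
      Real.exp (- -Real.log (m.w i (D.pr y))) ≤ 1
    rw [norm_fn_unit, hw i _ (hK2 i hi), norm_smul, mul_pow, mul_assoc, hinv i _ _ (hK2 i hi), hεn]
    have h2 : ‖Ψ i 1 (D.pr y)‖ ^ 2 * m.w i (D.pr y) ≤ max M' 1 :=
      (hM i _ hi).trans ((hM' ⟨i, rfl⟩).trans (le_max_left _ _))
    rw [inv_pow, inv_mul_le_iff₀ (by positivity)]
    nlinarith

theorem Gen.ne (hr : Φ.Rk r) {y : D.cov G} (hy : Φ.Gen r y) {i : A.ι}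
    (hi : D.pr y ∈ (A.e i).source) : Φ.S i (D.co i y) (D.pr y) ≠ 0 := fun h0 => by
  have h1 := (hy i hi).2
  rw [h0, Submodule.span_eq_bot.2 (by rintro _ ⟨I, rfl⟩; rfl), finrank_bot] at h1
  exact hr.pos.trans_eq h1.symm |> Nat.not_succ_le_zero 0

end Frm

/-- the theorem on one cover -/
theorem core (hR : Rn.RelnBStmt) [T2Space X] [CompactSpace X] [Finite A.ι]
    [ConnectedSpace (D.cov G)] [CompleteSpace H] (hG : Grp.JN G) (hA : Amen G) {K : Subgroup G}
    [Infinite K] (hK : K.FG) (hv : ¬ Grp.VInd K) (Φ : Frm D q H) (hF : Φ.NoFix K) (F : Fol D p)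
    (hE : Φ.Eta F.T) (m : HM F.L) : Nonempty (Pol F m) := by
  have : Countable G := Cov.A.countable D
  have : Countable (D.atl G).ι := inferInstanceAs (Countable (A.ι × G))
  obtain ⟨r, hr⟩ := Φ.exists_rk
  obtain ⟨Γ, hΓ⟩ := Φ.exists_gm hr
  have hg := Frm.ae_gen hr hΓ
  obtain ⟨y₀⟩ : Nonempty (D.cov G) := inferInstance
  have hle : p ≤ q + r := by
    rcases hR n Φ.one_le _ (D.atl G) G p F.T Γ.tp with h | ⟨V, _, _, I, -⟩ | h
    · obtain ⟨N, h1, h2, h3⟩ := Γ.of_tr h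
      obtain ⟨y, -, ⟨-, h4⟩, h5⟩ := (h3.and hg).exists_mem (x := y₀) univ_mem
      obtain ⟨i, hi⟩ := A.cover (D.pr y)
      refine absurd (Φ.triv hG hA hK hv hF h1 h2 hi fun g hg I => ?_) (h5.ne hr hi)
      have h6 := h4 g hg
      have h7 := (h5.deck g i hi).2
      rw [D.co_deck, D.pr_deck] at h7
      rw [← D.pt_co hi, D.deck_pt, Γ.snf_pt hi hi, hΓ, hΓ] at h6
      rw [span_eq_of_snf (h5 i hi).2 h7 h6]
      exact Submodule.subset_span ⟨I, rfl⟩
    · exact absurd (hG.vind_of_ig_amen hA I hK) hv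
    · obtain ⟨y, -, ⟨h1, -, h2⟩, h3⟩ := ((Γ.of_shell h).and hg).exists_mem (x := y₀) univ_mem
      exact Frm.le_of_shell hr hΓ F.T h1 h3 h2
  obtain ⟨Ψ, hΨ⟩ := Plk.exists_psi Φ (wc H r) F.tom F.cop
    (Frm.par_of_eta hE (le_antisymm hle (Frm.le_of_eta hE hg)))
  obtain ⟨Γ', ε, hε, hb, hw, h0⟩ := Frm.exists_gm2 hΨ hg m
  rcases hR n Φ.one_le _ (D.atl G) G p F.T Γ'.tp with h | ⟨V, _, _, I, -⟩ | h
  · obtain ⟨N, h1, h2, h3⟩ := Γ'.of_tr h
    obtain ⟨y, -, ⟨-, h4⟩, h5⟩ := (h3.and hg).exists_mem (x := y₀) univ_mem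
    obtain ⟨i, hi⟩ := A.cover (D.pr y)
    refine absurd (Φ.triv hG hA hK hv hF h1 h2 hi fun g hg I => ?_) (h5.ne hr hi)
    have h6 := h4 g hg
    obtain ⟨β, c, hc, hβ, hs, he⟩ := Frm.psi_eq hΨ h5 hi
    obtain ⟨β', c', hc', hβ', hs', he'⟩ := Frm.psi_eq hΨ (h5.deck g) (i := i) hi
    rw [D.co_deck, D.pr_deck] at hs' he'
    rw [← D.pt_co hi, D.deck_pt, Γ'.snf_pt hi hi, hb, hb, he, he',
      Plk.snf_eq_sn (i := ()) (j := ()) ⟨_, fun _ => ⟨1, (one_smul _ _).symm⟩⟩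
        ⟨_, fun _ => ⟨1, (one_smul _ _).symm⟩⟩ (smul_ne_zero hε (smul_ne_zero hc hβ))
        (smul_ne_zero hε (smul_ne_zero hc' hβ')), Plk.sn_smul_left hε, Plk.sn_smul_left hc,
      Plk.sn_smul_right hε, Plk.sn_smul_right hc', Plk.sn_eq_zero_iff hβ hβ'] at h6
    obtain ⟨d, hd⟩ := h6
    rw [← hs, Plk.span_eq_of_wc hβ hd, hs']
    exact Submodule.subset_span ⟨I, rfl⟩
  · exact absurd (hG.vind_of_ig_amen hA I hK) hv
  · refine Rn93.pol_of_shell F m Γ'.tp (funext fun q => funext fun z => hw _ _) (fun y => ?_) h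
    change Lg (Γ'.nr y) ≤ ((0 : ℝ) : EReal)
    rw [Lg_le, Real.exp_zero]
    exact h0 y

theorem gauss_of (hR : Rn.RelnBStmt) : GaussStmt := by
  intro n X _ _ _ A _ Γ _ D _ N _ hG hA M _ _ hK hv q H _ _ _ Φ U hF p F m
  have := Cov.A.connected_push D (QuotientGroup.mk' N) (QuotientGroup.mk'_surjective N)
  obtain ⟨Φ', h1, h2⟩ := Dsc.desc U hF
  exact core hR hG hA hK hv Φ' h1 F (h2 p F.T) m

/-- **GAUSS** -/
theorem gauss_of_eqv (hQ : Eqv.EqvStmt) : GaussStmt := gauss_of (Rn.relnB_of hQ)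

end

end Crest.Agent.X261.Gauss
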